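import Vale.Agent.Lib.P038.Sat.Shapes.S6_0f
noncomputable section
namespace Vale.Agent.Lib.P038.Sat.I.Reg
open Vale.Agent.Lib.P038.Sat
def W : Nat := 1017
def M : Nat := 1404447761611184302913519680303925573139044514798677009948672509044786529730476274474284979081308875165000889686495260606709295068862629863225370551870891596701311667381761603721111090634735110308227210563164107569048052205800491261514946176100212790338675864723330454999587858894372783631526221325189251071
def GT : Nat := 660504291040075316557467616012537468018599357361430811267359495623018095692323656552103792860914480129866912615105709619505532809386202067615454200031227061199513409389805190739325427619026762557521202022454988654008880444211465555307413197843947781322469493958032612181048112300764352600240935147438705129577237264536488030997490174614577053213839079825948071476126164753462891084120881602245565683214647312466330942970323611810128889705564430024675642978164896465899561094418799347212002255395813254931510679873313996108141259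11027599760735898523615975380865795547683360392870137783361326154678500755590390812660800718093275454127440765958642499055589331080052108053097690480281567045371393573210401631233160268715615063155015820329785203589462811501081297172964182587449757369079261923743014023012162804071474678206838165687889199605708987671833577711756583827015394980200666694522107470945855755223119880124079081239224240221747256512924396035846513308647306318487519484401689136729240546259021401294257841105689379113388193414308658391564642435984772149695724924620058809839819343955078754487350988037340623440460345933455568430113300904002628461283481455692068973255657508979955022738202426574880815261452475991832882458359161882961922580967780243142033215573244592233396004903680684201914867058310360323469451245310274168535870325784352918926842005968769975827545231801280504116080488681169883733416546169455989745510024251704615870059479955422116706080867270358555782769319969909430841656194016309923059257991195656114869183337058104956691352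41641261792840732321070747874266787158756145797622857565490955391181684066649350771833481040410070968065719630155591963648673948080975438861284402906254218297695270552430569262679054182692575011225398831823228708917105547696671016652911586855754491079217364829834948156876410033119467414498640877621573963890899432506650356520981895999086346265375459488664361752677836759684724041473627550290746081067579089031742108488552986579254602217168356376144941611912120234723672956522057175015936966054266998794905674925434799912522829615599402802069776594280475532204197009844733490852453519989668315256636377786167783623497904838467637062359674285788197860109834063320294233103333894562537916029502099648534413014090485538607222508771584375244987304554781018575124246752980991288742176712116160474426167785423984191600179044764062469358442187143064200029791657200317795685129793761526014665649626055361542623718799842721744021045840826802546191952337372355107406287241365268806771105774118354050065252150609314789962226088368151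85431731161033562782371902309975225447436714858834338363235259487134725973011997163779443524673873258569465632956355844592512020333694216861932183018537414827740390708878731362377882240986337166743758381000563834406952097930415115850746174198987455628481946888342503602784528197020098186982036751388144867041305311576748288425419787447786950726805572831985346469135178826364714863394521920632131804819326676224957668841640077557733659898653611239178503548551013119946899186214829145231906724180615835545523180446939628594978971402309990599265577486638494643369947438177768434682965245202170808665371477703766739828302917313018195651020481968523308939845321303665408952245019264583791464619865846742569584482210874190453870302893237748151848102944088514128799372704037889907661152712935751219184074242789197058608640643438689931744207645444781894001566065212229333258514617152964419651374116317112341150730919693571443388115674034551596746135407834809408049695866977997816681549131640718673984610885976918508768006665661278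98922788478293527001584883396428605406011584417340397220457944273454044737276213392708378847786966030187324633138751487269200521834800000441354372074946344386626896855051541247820187418479190404769398429795116458420095584592721846772135699960065132533912200855399286629640818508956613789721398360771320403304095898935141996620946030917916997487933049378766157929921703350018300159981558828496912499191138143380781159468702811949349322075673236155218916458655168331073836998340137332088781103722729288419632559407397415415492893724430523363278843077726155939233389431581769804116317729506029233219193575068588418549503190510193843169522527458285855127318195893968831146823167733997812855915364654080961577485837465967389365968714933599014289498184173823494589552124232982001160977883211200060730830520120525708256237882808987784197013380854342531610620983642251165259456487724026257233531771686845890556395706254392021547029410583708956300725903677177209841514520833540252558762282503197806105391446403185463414720898890163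73604629639690194121546470968766534001143610739387905850750878706594788664064547557053484723605315242099758245331353652123904933450670670258488876493385546798919852341920934151300455797343623818175125739676945895293550197743452992976405406603370093498836011304502077762808527766479292757334553864395947540492586387802692098648095608738606118697724379087982129657581602799112089419627774757856175321559486979893475345412167879816411272943168017927187099936205086997734124645041093017317006571656844109348078096342296276270525357634817447857624974567556672004638245494249010178999865543403918483918820402534673571275887952117942803876608187222657600805236560251107522106921281594098883500173530278627690252082531766938191369731870320460285315318956857618741189824616531714228139200332225365117687639475232574968151211992209316817108391579750044623063667403096224715904742139896632968916280946132364935892410749085322998485403412358974219551672537760803341831698099612698083317528839444324298745353052365875701481201454745511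16152308253406946364797912466023797131217049078774928776863193297096335858541237594723332894497063526923959284503317735948103559507703819838043466162117021315403407186439896649012553746894769757774300859182176404803994753660396847143678443814138539922359006217664008376255744227830426037585844295869912282989169096295307027122452501336953482223450274111853340904934946418657375995080567807403129534792637586613180929418596519864009772529383937778304926089597803898864664222582714677667804680358230417428009979420566220320605596102284735343151938253604259005681536174341938848047953459889551197707702969830985895801223549293894286638078470049041937687270494732953514459136936035371195278279330157968425637863096252200116030269992013751435857392399161753634297935207977947194797839846040446131025436735204529210502205471122013117030282238727393428792491350272114218540674695162922051696685273948299038840554441176709991005120005494496545816021966725129559291963013905643585001967356077833535259268491073886423533698223724344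74781776933820499344077749096245480518302823159235682704342733877951435205410972326536128022163840824142269159272159705011127894609867432144406550776744045870079561158582102640863680379436909173254169286271601887947862354822208637875219866902681433941502115461060261037957622761371117114405707813863413303515911990800595506103019419844530190603006415692231168583992564889182764244758849064597246403961477653166425157409823464785251740464008547265387277080774799502843836741686141131448954168059237872860919591245434053468819435673167990572155447383875255787954082197459732875487220595397143998495760498331263130221373472394714644059584938697196574140315204648540676654609331230710438147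
def h0 : T := (T.n (nat_lit 255) (T.n (nat_lit 127) (T.n (nat_lit 63) (T.n (nat_lit 31) (T.n (nat_lit 15) (T.n (nat_lit 7) (T.n (nat_lit 3) (T.n (nat_lit 1) (T.n (nat_lit 0) (T.l (nat_lit 4400336577538)) (T.l (nat_lit 198383557221719922105934832701))) (T.n (nat_lit 2) (T.l (nat_lit 709821336503301)) (T.l (nat_lit 5418486769296318596)))) (T.n (nat_lit 5) (T.n (nat_lit 4) (T.l (nat_lit 619111828768033)) (T.l (nat_lit 25300074794))) (T.n (nat_lit 6) (T.l (nat_lit 309227424860501099730157572)) (T.l (nat_lit 38779654832859251892628))))) (T.n (nat_lit 11) (T.n (nat_lit 9) (T.n (nat_lit 8) (T.l (nat_lit 1877176)) (T.l (nat_lit 19004866779179035525515))) (T.n (nat_lit 10) (T.l (nat_lit 9889287)) (T.l (nat_lit 561867630068735)))) (T.n (nat_lit 13) (T.n (nat_lit 12) (T.l (nat_lit 369232191079966950582)) (T.l (nat_lit 828698624121029750))) (T.n (nat_lit 14) (T.l (nat_lit 828698624121029761)) (T.l (nat_lit 69064574236)))))) (T.n (nat_lit 23) (T.n (nat_lit 19) (T.n (nat_lit 17) (T.n (nat_lit 16) (T.l (nat_lit 81144849556))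 (T.l (nat_lit 83829114026))) (T.n (nat_lit 18) (T.l (nat_lit 2097159)) (T.l (nat_lit 24578)))) (T.n (nat_lit 21) (T.n (nat_lit 20) (T.l (nat_lit 630788)) (T.l (nat_lit 475190))) (T.n (nat_lit 22) (T.l (nat_lit 1302564)) (T.l (nat_lit 1089644))))) (T.n (nat_lit 27) (T.n (nat_lit 25) (T.n (nat_lit 24) (T.l (nat_lit 2285672)) (T.l (nat_lit 2957547))) (T.n (nat_lit 26) (T.l (nat_lit 2531527)) (T.l (nat_lit 991325)))) (T.n (nat_lit 29) (T.n (nat_lit 28) (T.l (nat_lit 2195557)) (T.l (nat_lit 3080453))) (T.n (nat_lit 30) (T.l (nat_lit 2580685)) (T.l (nat_lit 376876))))))) (T.n (nat_lit 47) (T.n (nat_lit 39) (T.n (nat_lit 35) (T.n (nat_lit 33) (T.n (nat_lit 32) (T.l (nat_lit 1327138)) (T.l (nat_lit 2572519))) (T.n (nat_lit 34) (T.l (nat_lit 2203792)) (T.l (nat_lit 417830)))) (T.n (nat_lit 37) (T.n (nat_lit 36) (T.l (nat_lit 1196060)) (T.l (nat_lit 2736374))) (T.n (nat_lit 38) (T.l (nat_lit 2039965)) (T.l (nat_lit 204813))))) (T.n (nat_lit 43) (T.n (nat_lit 41) (T.n (nat_lit 40) (T.l (nat_lit 720915)) (T.l (nat_lit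 2252995))) (T.n (nat_lit 42) (T.l (nat_lit 2277496)) (T.l (nat_lit 778324)))) (T.n (nat_lit 45) (T.n (nat_lit 44) (T.l (nat_lit 1794135)) (T.l (nat_lit 2769190))) (T.n (nat_lit 46) (T.l (nat_lit 2646241)) (T.l (nat_lit 8601830)))))) (T.n (nat_lit 55) (T.n (nat_lit 51) (T.n (nat_lit 49) (T.n (nat_lit 48) (T.l (nat_lit 8446012)) (T.l (nat_lit 550481))) (T.n (nat_lit 50) (T.l (nat_lit 5915422)) (T.l (nat_lit 3170672)))) (T.n (nat_lit 53) (T.n (nat_lit 52) (T.l (nat_lit 3088846)) (T.l (nat_lit 3777016))) (T.n (nat_lit 54) (T.l (nat_lit 6652773)) (T.l (nat_lit 6619960))))) (T.n (nat_lit 59) (T.n (nat_lit 57) (T.n (nat_lit 56) (T.l (nat_lit 4620855)) (T.l (nat_lit 3400122))) (T.n (nat_lit 58) (T.l (nat_lit 3678701)) (T.l (nat_lit 7136102)))) (T.n (nat_lit 61) (T.n (nat_lit 60) (T.l (nat_lit 5218937)) (T.l (nat_lit 3285512))) (T.n (nat_lit 62) (T.l (nat_lit 3580391)) (T.l (nat_lit 6046509)))))))) (T.n (nat_lit 95) (T.n (nat_lit 79) (T.n (nat_lit 71) (T.n (nat_lit 67) (T.n (nat_lit 65) (T.n (nat_lit 64) (T.l (nat_lit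 5071470)) (T.l (nat_lit 3662373))) (T.n (nat_lit 66) (T.l (nat_lit 4104706)) (T.l (nat_lit 5989152)))) (T.n (nat_lit 69) (T.n (nat_lit 68) (T.l (nat_lit 4940371)) (T.l (nat_lit 3637696))) (T.n (nat_lit 70) (T.l (nat_lit 3727844)) (T.l (nat_lit 5620526))))) (T.n (nat_lit 75) (T.n (nat_lit 73) (T.n (nat_lit 72) (T.l (nat_lit 4006365)) (T.l (nat_lit 3809771))) (T.n (nat_lit 74) (T.l (nat_lit 3940861)) (T.l (nat_lit 5563120)))) (T.n (nat_lit 77) (T.n (nat_lit 76) (T.l (nat_lit 7185344)) (T.l (nat_lit 4433313))) (T.n (nat_lit 78) (T.l (nat_lit 11550984)) (T.l (nat_lit 12346773)))))) (T.n (nat_lit 87) (T.n (nat_lit 83) (T.n (nat_lit 81) (T.n (nat_lit 80) (T.l (nat_lit 12150177)) (T.l (nat_lit 11519362))) (T.n (nat_lit 82) (T.l (nat_lit 13763637)) (T.l (nat_lit 12887100)))) (T.n (nat_lit 85) (T.n (nat_lit 84) (T.l (nat_lit 13763644)) (T.l (nat_lit 11568392))) (T.n (nat_lit 86) (T.l (nat_lit 14501659)) (T.l (nat_lit 14690036))))) (T.n (nat_lit 91) (T.n (nat_lit 89) (T.n (nat_lit 88) (T.l (nat_lit 13018711)) (T.l (nat_lit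 12232155))) (T.n (nat_lit 90) (T.l (nat_lit 11822458)) (T.l (nat_lit 12633577)))) (T.n (nat_lit 93) (T.n (nat_lit 92) (T.l (nat_lit 4236879)) (T.l (nat_lit 5465746))) (T.n (nat_lit 94) (T.l (nat_lit 6244020)) (T.l (nat_lit 6456997))))))) (T.n (nat_lit 111) (T.n (nat_lit 103) (T.n (nat_lit 99) (T.n (nat_lit 97) (T.n (nat_lit 96) (T.l (nat_lit 4236946)) (T.l (nat_lit 5710511))) (T.n (nat_lit 98) (T.l (nat_lit 4637437)) (T.l (nat_lit 7987818)))) (T.n (nat_lit 101) (T.n (nat_lit 100) (T.l (nat_lit 7979774)) (T.l (nat_lit 5079638))) (T.n (nat_lit 102) (T.l (nat_lit 5374617)) (T.l (nat_lit 5939899))))) (T.n (nat_lit 107) (T.n (nat_lit 105) (T.n (nat_lit 104) (T.l (nat_lit 6218412)) (T.l (nat_lit 14706424))) (T.n (nat_lit 106) (T.l (nat_lit 10855738)) (T.l (nat_lit 10323207)))) (T.n (nat_lit 109) (T.n (nat_lit 108) (T.l (nat_lit 10773823)) (T.l (nat_lit 10323263))) (T.n (nat_lit 110) (T.l (nat_lit 13125175)) (T.l (nat_lit 10774071)))))) (T.n (nat_lit 119) (T.n (nat_lit 115) (T.n (nat_lit 113) (T.n (nat_lit 112) (T.l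 (nat_lit 15034133)) (T.l (nat_lit 13157937))) (T.n (nat_lit 114) (T.l (nat_lit 14050972)) (T.l (nat_lit 14862089)))) (T.n (nat_lit 117) (T.n (nat_lit 116) (T.l (nat_lit 13149728)) (T.l (nat_lit 12600703))) (T.n (nat_lit 118) (T.l (nat_lit 13747998)) (T.l (nat_lit 15427373))))) (T.n (nat_lit 123) (T.n (nat_lit 121) (T.n (nat_lit 120) (T.l (nat_lit 12936739)) (T.l (nat_lit 10478960))) (T.n (nat_lit 122) (T.l (nat_lit 11167134)) (T.l (nat_lit 16090330)))) (T.n (nat_lit 125) (T.n (nat_lit 124) (T.l (nat_lit 4612290760367382765)) (T.l (nat_lit 5450089541524045850))) (T.n (nat_lit 126) (T.l (nat_lit 9889066)) (T.l (nat_lit 11825511292690567262331950))))))))) (T.n (nat_lit 191) (T.n (nat_lit 159) (T.n (nat_lit 143) (T.n (nat_lit 135) (T.n (nat_lit 131) (T.n (nat_lit 129) (T.n (nat_lit 128) (T.l (nat_lit 8496234)) (T.l (nat_lit 5450089557293162656))) (T.n (nat_lit 130) (T.l (nat_lit 91606787162)) (T.l (nat_lit 133602676368413)))) (T.n (nat_lit 133) (T.n (nat_lit 132) (T.l (nat_lit 9479621)) (T.l (nat_lit 6604344303833139127292)))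 (T.n (nat_lit 134) (T.l (nat_lit 9479708)) (T.l (nat_lit 77655254155))))) (T.n (nat_lit 139) (T.n (nat_lit 137) (T.n (nat_lit 136) (T.l (nat_lit 133602675377149)) (T.l (nat_lit 11077141))) (T.n (nat_lit 138) (T.l (nat_lit 4015387)) (T.l (nat_lit 90741563707)))) (T.n (nat_lit 141) (T.n (nat_lit 140) (T.l (nat_lit 133602675999791)) (T.l (nat_lit 8463550))) (T.n (nat_lit 142) (T.l (nat_lit 69332312152)) (T.l (nat_lit 69600355385)))))) (T.n (nat_lit 151) (T.n (nat_lit 147) (T.n (nat_lit 145) (T.n (nat_lit 144) (T.l (nat_lit 69332697307)) (T.l (nat_lit 69600355432))) (T.n (nat_lit 146) (T.l (nat_lit 69601542231)) (T.l (nat_lit 69600355482)))) (T.n (nat_lit 149) (T.n (nat_lit 148) (T.l (nat_lit 94298629363)) (T.l (nat_lit 77655319786))) (T.n (nat_lit 150) (T.l (nat_lit 79736841459)) (T.l (nat_lit 8856766))))) (T.n (nat_lit 155) (T.n (nat_lit 153) (T.n (nat_lit 152) (T.l (nat_lit 75909604360)) (T.l (nat_lit 69601133625))) (T.n (nat_lit 154) (T.l (nat_lit 75910431877)) (T.l (nat_lit 84904183026)))) (T.n (nat_lit 157)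 (T.n (nat_lit 156) (T.l (nat_lit 77655319928)) (T.l (nat_lit 10675498))) (T.n (nat_lit 158) (T.l (nat_lit 93962716293)) (T.l (nat_lit 84432216313))))))) (T.n (nat_lit 175) (T.n (nat_lit 167) (T.n (nat_lit 163) (T.n (nat_lit 161) (T.n (nat_lit 160) (T.l (nat_lit 93962773766)) (T.l (nat_lit 10380586))) (T.n (nat_lit 162) (T.l (nat_lit 69601543272)) (T.l (nat_lit 79063483708)))) (T.n (nat_lit 165) (T.n (nat_lit 164) (T.l (nat_lit 79063483663)) (T.l (nat_lit 11511082))) (T.n (nat_lit 166) (T.l (nat_lit 69332698169)) (T.l (nat_lit 79735219249))))) (T.n (nat_lit 171) (T.n (nat_lit 169) (T.n (nat_lit 168) (T.l (nat_lit 72553923738)) (T.l (nat_lit 9241706))) (T.n (nat_lit 170) (T.l (nat_lit 79735709964)) (T.l (nat_lit 79736840460)))) (T.n (nat_lit 173) (T.n (nat_lit 172) (T.l (nat_lit 4593764597446952247)) (T.l (nat_lit 85496725652))) (T.n (nat_lit 174) (T.l (nat_lit 114434247730504)) (T.l (nat_lit 560819718137137)))))) (T.n (nat_lit 183) (T.n (nat_lit 179) (T.n (nat_lit 177) (T.n (nat_lit 176) (T.l (nat_lit 25637404865))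 (T.l (nat_lit 37779008988211836010799))) (T.n (nat_lit 178) (T.l (nat_lit 560762279961769)) (T.l (nat_lit 3063105394203735221258)))) (T.n (nat_lit 181) (T.n (nat_lit 180) (T.l (nat_lit 38337730059932436308284)) (T.l (nat_lit 11662999627028919173125))) (T.n (nat_lit 182) (T.l (nat_lit 308293241487416879736660266)) (T.l (nat_lit 5829293300638196016135))))) (T.n (nat_lit 187) (T.n (nat_lit 185) (T.n (nat_lit 184) (T.l (nat_lit 37673534762993408476162)) (T.l (nat_lit 615259778581024))) (T.n (nat_lit 186) (T.l (nat_lit 641092059963401)) (T.l (nat_lit 80809714849)))) (T.n (nat_lit 189) (T.n (nat_lit 188) (T.l (nat_lit 78931771690)) (T.l (nat_lit 564118125789513))) (T.n (nat_lit 190) (T.l (nat_lit 81144759483)) (T.l (nat_lit 5184239660592144768)))))))) (T.n (nat_lit 223) (T.n (nat_lit 207) (T.n (nat_lit 199) (T.n (nat_lit 195) (T.n (nat_lit 193) (T.n (nat_lit 192) (T.l (nat_lit 4579944706546731107617)) (T.l (nat_lit 228175575860885))) (T.n (nat_lit 194) (T.l (nat_lit 6805792351541068827)) (T.l (nat_lit 571841173060486418812494087))))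 (T.n (nat_lit 197) (T.n (nat_lit 196) (T.l (nat_lit 108057994772)) (T.l (nat_lit 8544375))) (T.n (nat_lit 198) (T.l (nat_lit 288442)) (T.l (nat_lit 8585310))))) (T.n (nat_lit 203) (T.n (nat_lit 201) (T.n (nat_lit 200) (T.l (nat_lit 517765)) (T.l (nat_lit 9004540))) (T.n (nat_lit 202) (T.l (nat_lit 101883003178)) (T.l (nat_lit 9077835)))) (T.n (nat_lit 205) (T.n (nat_lit 204) (T.l (nat_lit 106103216013628)) (T.l (nat_lit 1364600043287643135))) (T.n (nat_lit 206) (T.l (nat_lit 1364600117433959426)) (T.l (nat_lit 106103216013329)))))) (T.n (nat_lit 215) (T.n (nat_lit 211) (T.n (nat_lit 209) (T.n (nat_lit 208) (T.l (nat_lit 564672638681168)) (T.l (nat_lit 6585064818079244314))) (T.n (nat_lit 210) (T.l (nat_lit 41136712343772188983752)) (T.l (nat_lit 16493389055835872215338)))) (T.n (nat_lit 213) (T.n (nat_lit 212) (T.l (nat_lit 4634320580836828281)) (T.l (nat_lit 2190696190172922398922206322155560))) (T.n (nat_lit 214) (T.l (nat_lit 573469611984527)) (T.l (nat_lit 1891760911737987615))))) (T.n (nat_lit 219) (T.n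 (nat_lit 217) (T.n (nat_lit 216) (T.l (nat_lit 40289743296079402049610)) (T.l (nat_lit 600343552074934))) (T.n (nat_lit 218) (T.l (nat_lit 4917984679361651779)) (T.l (nat_lit 250701335315519)))) (T.n (nat_lit 221) (T.n (nat_lit 220) (T.l (nat_lit 600364764849219)) (T.l (nat_lit 600364160869699))) (T.n (nat_lit 222) (T.l (nat_lit 56634045056284)) (T.l (nat_lit 600408177853503))))))) (T.n (nat_lit 239) (T.n (nat_lit 231) (T.n (nat_lit 227) (T.n (nat_lit 225) (T.n (nat_lit 224) (T.l (nat_lit 600429183419810)) (T.l (nat_lit 120908670242508426310778971))) (T.n (nat_lit 226) (T.l (nat_lit 14980522203191948068110)) (T.l (nat_lit 9898912824177257136898547811590382)))) (T.n (nat_lit 229) (T.n (nat_lit 228) (T.l (nat_lit 122720437888513243321541022)) (T.l (nat_lit 1208363381857575334094053950604))) (T.n (nat_lit 230) (T.l (nat_lit 72016315457)) (T.l (nat_lit 72016381059))))) (T.n (nat_lit 235) (T.n (nat_lit 233) (T.n (nat_lit 232) (T.l (nat_lit 692211634259064)) (T.l (nat_lit 181439023506500))) (T.n (nat_lit 234) (T.l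 (nat_lit 37894863550475673837782)) (T.l (nat_lit 37889824562353460265174)))) (T.n (nat_lit 237) (T.n (nat_lit 236) (T.l (nat_lit 7827229135806741463279)) (T.l (nat_lit 43608742559684810981492))) (T.n (nat_lit 238) (T.l (nat_lit 477466773123147030)) (T.l (nat_lit 573732)))))) (T.n (nat_lit 247) (T.n (nat_lit 243) (T.n (nat_lit 241) (T.n (nat_lit 240) (T.l (nat_lit 5373459628506072065)) (T.l (nat_lit 4697830624639059097))) (T.n (nat_lit 242) (T.l (nat_lit 42907577137054882284625)) (T.l (nat_lit 7202086578761303067)))) (T.n (nat_lit 245) (T.n (nat_lit 244) (T.l (nat_lit 47857245338249504556044)) (T.l (nat_lit 5373459653548901373))) (T.n (nat_lit 246) (T.l (nat_lit 5238293917883253972)) (T.l (nat_lit 82127))))) (T.n (nat_lit 251) (T.n (nat_lit 249) (T.n (nat_lit 248) (T.l (nat_lit 4720339219674144770)) (T.l (nat_lit 574593889517601))) (T.n (nat_lit 250) (T.l (nat_lit 37705172471292796239955)) (T.l (nat_lit 86918758662)))) (T.n (nat_lit 253) (T.n (nat_lit 252) (T.l (nat_lit 4598776748648587562)) (T.l (nat_lit 73090057262)))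 (T.n (nat_lit 254) (T.l (nat_lit 363589057186934422907158664)) (T.l (nat_lit 75574133870)))))))))) (T.n (nat_lit 383) (T.n (nat_lit 319) (T.n (nat_lit 287) (T.n (nat_lit 271) (T.n (nat_lit 263) (T.n (nat_lit 259) (T.n (nat_lit 257) (T.n (nat_lit 256) (T.l (nat_lit 463960936076582922)) (T.l (nat_lit 803135))) (T.n (nat_lit 258) (T.l (nat_lit 5495226631461233232)) (T.l (nat_lit 2908229)))) (T.n (nat_lit 261) (T.n (nat_lit 260) (T.l (nat_lit 4707105049044214140)) (T.l (nat_lit 9798110))) (T.n (nat_lit 262) (T.l (nat_lit 69265384491)) (T.l (nat_lit 69265048991))))) (T.n (nat_lit 267) (T.n (nat_lit 265) (T.n (nat_lit 264) (T.l (nat_lit 6291569942664397915)) (T.l (nat_lit 51540541309530042753361))) (T.n (nat_lit 266) (T.l (nat_lit 31137329917859615473696891)) (T.l (nat_lit 4895594289206576195)))) (T.n (nat_lit 269) (T.n (nat_lit 268) (T.l (nat_lit 40105275439113669664971)) (T.l (nat_lit 41244373148735))) (T.n (nat_lit 270) (T.l (nat_lit 2771902757269460828616)) (T.l (nat_lit 2121818366969235323101206)))))) (T.n (nat_lit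 279) (T.n (nat_lit 275) (T.n (nat_lit 273) (T.n (nat_lit 272) (T.l (nat_lit 338367015258808507)) (T.l (nat_lit 338367016396988847))) (T.n (nat_lit 274) (T.l (nat_lit 8496466)) (T.l (nat_lit 72016610369)))) (T.n (nat_lit 277) (T.n (nat_lit 276) (T.l (nat_lit 567422029710377)) (T.l (nat_lit 4648304775921050703))) (T.n (nat_lit 278) (T.l (nat_lit 8463698)) (T.l (nat_lit 752184220566339705))))) (T.n (nat_lit 283) (T.n (nat_lit 281) (T.n (nat_lit 280) (T.l (nat_lit 8725694)) (T.l (nat_lit 79062736921))) (T.n (nat_lit 282) (T.l (nat_lit 79062736991)) (T.l (nat_lit 9651390)))) (T.n (nat_lit 285) (T.n (nat_lit 284) (T.l (nat_lit 9651538)) (T.l (nat_lit 1878127021105815614))) (T.n (nat_lit 286) (T.l (nat_lit 75707293791)) (T.l (nat_lit 5238272480351487057))))))) (T.n (nat_lit 303) (T.n (nat_lit 295) (T.n (nat_lit 291) (T.n (nat_lit 289) (T.n (nat_lit 288) (T.l (nat_lit 8460805254716942442851392942253318)) (T.l (nat_lit 614145628069896))) (T.n (nat_lit 290) (T.l (nat_lit 38001982421892480992329)) (T.l (nat_lit 280091829985565835526890873873))))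 (T.n (nat_lit 293) (T.n (nat_lit 292) (T.l (nat_lit 5841930747791351822)) (T.l (nat_lit 4977044462801879386))) (T.n (nat_lit 294) (T.l (nat_lit 392045336361696572346344716)) (T.l (nat_lit 9733467))))) (T.n (nat_lit 299) (T.n (nat_lit 297) (T.n (nat_lit 296) (T.l (nat_lit 8922243)) (T.l (nat_lit 573398334129159))) (T.n (nat_lit 298) (T.l (nat_lit 9733639)) (T.l (nat_lit 566801272602673)))) (T.n (nat_lit 301) (T.n (nat_lit 300) (T.l (nat_lit 5841930747388698650)) (T.l (nat_lit 488060316381784520902337273872))) (T.n (nat_lit 302) (T.l (nat_lit 5841930748194005023)) (T.l (nat_lit 4630267836215149701)))))) (T.n (nat_lit 311) (T.n (nat_lit 307) (T.n (nat_lit 305) (T.n (nat_lit 304) (T.l (nat_lit 2815442011640098349530733863140)) (T.l (nat_lit 5841930751885320327))) (T.n (nat_lit 306) (T.l (nat_lit 566868247249281)) (T.l (nat_lit 47857096723839913616497)))) (T.n (nat_lit 309) (T.n (nat_lit 308) (T.l (nat_lit 81011475717)) (T.l (nat_lit 2545516359885375993449258639399))) (T.n (nat_lit 310) (T.l (nat_lit 20913746764918018409045832671872084))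 (T.l (nat_lit 334004242297090916560306267))))) (T.n (nat_lit 315) (T.n (nat_lit 313) (T.n (nat_lit 312) (T.l (nat_lit 38041884110577835492436)) (T.l (nat_lit 607558230688847))) (T.n (nat_lit 314) (T.l (nat_lit 1399412418194003763970582064618672595715114)) (T.l (nat_lit 3211635396656127861926909764681)))) (T.n (nat_lit 317) (T.n (nat_lit 316) (T.l (nat_lit 595386285294600)) (T.l (nat_lit 32342049429367133602866331))) (T.n (nat_lit 318) (T.l (nat_lit 85037606052)) (T.l (nat_lit 37853588149497868674169)))))))) (T.n (nat_lit 351) (T.n (nat_lit 335) (T.n (nat_lit 327) (T.n (nat_lit 323) (T.n (nat_lit 321) (T.n (nat_lit 320) (T.l (nat_lit 564070679831562)) (T.l (nat_lit 4621253420869935148))) (T.n (nat_lit 322) (T.l (nat_lit 791405555329706985713204156097564)) (T.l (nat_lit 21157106165723653560388788047340578)))) (T.n (nat_lit 325) (T.n (nat_lit 324) (T.l (nat_lit 317347196784153549311508528)) (T.l (nat_lit 744439513030689))) (T.n (nat_lit 326) (T.l (nat_lit 40108292710729559089583)) (T.l (nat_lit 18591311032)))))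 (T.n (nat_lit 331) (T.n (nat_lit 329) (T.n (nat_lit 328) (T.l (nat_lit 57728994803782)) (T.l (nat_lit 3876298336005280753044))) (T.n (nat_lit 330) (T.l (nat_lit 40590193887592778)) (T.l (nat_lit 69592547353)))) (T.n (nat_lit 333) (T.n (nat_lit 332) (T.l (nat_lit 569616615736326)) (T.l (nat_lit 7163805877392))) (T.n (nat_lit 334) (T.l (nat_lit 69525439497)) (T.l (nat_lit 5670106706047181945)))))) (T.n (nat_lit 343) (T.n (nat_lit 339) (T.n (nat_lit 337) (T.n (nat_lit 336) (T.l (nat_lit 4665884865256800340)) (T.l (nat_lit 80674080033))) (T.n (nat_lit 338) (T.l (nat_lit 4977047238223192292)) (T.l (nat_lit 22667732966744943634375087)))) (T.n (nat_lit 341) (T.n (nat_lit 340) (T.l (nat_lit 260008559436495359941932704074)) (T.l (nat_lit 744475077107788))) (T.n (nat_lit 342) (T.l (nat_lit 5142768244777905302356073)) (T.l (nat_lit 6013036200159609857))))) (T.n (nat_lit 347) (T.n (nat_lit 345) (T.n (nat_lit 344) (T.l (nat_lit 5053044352424108463)) (T.l (nat_lit 152313108341850))) (T.n (nat_lit 346) (T.l (nat_lit 2280435384343))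 (T.l (nat_lit 6156669209985770811)))) (T.n (nat_lit 349) (T.n (nat_lit 348) (T.l (nat_lit 102487623101)) (T.l (nat_lit 2163790))) (T.n (nat_lit 350) (T.l (nat_lit 9413402019068789227559)) (T.l (nat_lit 87510261762))))))) (T.n (nat_lit 367) (T.n (nat_lit 359) (T.n (nat_lit 355) (T.n (nat_lit 353) (T.n (nat_lit 352) (T.l (nat_lit 657542039822976000)) (T.l (nat_lit 100072808627))) (T.n (nat_lit 354) (T.l (nat_lit 230362602172375067)) (T.l (nat_lit 79735219528)))) (T.n (nat_lit 357) (T.n (nat_lit 356) (T.l (nat_lit 69600617553)) (T.l (nat_lit 638903575233688))) (T.n (nat_lit 358) (T.l (nat_lit 81010778421)) (T.l (nat_lit 77519307770))))) (T.n (nat_lit 363) (T.n (nat_lit 361) (T.n (nat_lit 360) (T.l (nat_lit 128757893078253079994885424145)) (T.l (nat_lit 128757893078253079994885424177))) (T.n (nat_lit 362) (T.l (nat_lit 3134817830081393834291651527942)) (T.l (nat_lit 38914687464228937002540247162166657278636295774733614)))) (T.n (nat_lit 365) (T.n (nat_lit 364) (T.l (nat_lit 573464512004578)) (T.l (nat_lit 570716741362682)))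 (T.n (nat_lit 366) (T.l (nat_lit 77989962810)) (T.l (nat_lit 38042487598466932704311)))))) (T.n (nat_lit 375) (T.n (nat_lit 371) (T.n (nat_lit 369) (T.n (nat_lit 368) (T.l (nat_lit 8504669)) (T.l (nat_lit 69667922938))) (T.n (nat_lit 370) (T.l (nat_lit 70205334574)) (T.l (nat_lit 5702127313824310329)))) (T.n (nat_lit 373) (T.n (nat_lit 372) (T.l (nat_lit 9241790)) (T.l (nat_lit 28108825158673))) (T.n (nat_lit 374) (T.l (nat_lit 230253749053547577)) (T.l (nat_lit 230253749053547624))))) (T.n (nat_lit 379) (T.n (nat_lit 377) (T.n (nat_lit 376) (T.l (nat_lit 28045138846763)) (T.l (nat_lit 570716740207674))) (T.n (nat_lit 378) (T.l (nat_lit 69600355376)) (T.l (nat_lit 87454360884)))) (T.n (nat_lit 381) (T.n (nat_lit 380) (T.l (nat_lit 69668521025)) (T.l (nat_lit 4697821215363317845))) (T.n (nat_lit 382) (T.l (nat_lit 69667865665)) (T.l (nat_lit 8463872))))))))) (T.n (nat_lit 447) (T.n (nat_lit 415) (T.n (nat_lit 399) (T.n (nat_lit 391) (T.n (nat_lit 387) (T.n (nat_lit 385) (T.n (nat_lit 384) (T.l (nat_lit 72621253654))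 (T.l (nat_lit 9889301))) (T.n (nat_lit 386) (T.l (nat_lit 573467599569162)) (T.l (nat_lit 573464506277973)))) (T.n (nat_lit 389) (T.n (nat_lit 388) (T.l (nat_lit 8496640)) (T.l (nat_lit 69667571156))) (T.n (nat_lit 390) (T.l (nat_lit 576213290738088)) (T.l (nat_lit 1757188999736706466))))) (T.n (nat_lit 395) (T.n (nat_lit 393) (T.n (nat_lit 392) (T.l (nat_lit 267188381115455)) (T.l (nat_lit 619105721435278))) (T.n (nat_lit 394) (T.l (nat_lit 676278983574657)) (T.l (nat_lit 676279050552438)))) (T.n (nat_lit 397) (T.n (nat_lit 396) (T.l (nat_lit 41547485553074249860101)) (T.l (nat_lit 2651985829368801987108282720499))) (T.n (nat_lit 398) (T.l (nat_lit 106104013111414)) (T.l (nat_lit 106104012980229)))))) (T.n (nat_lit 407) (T.n (nat_lit 403) (T.n (nat_lit 401) (T.n (nat_lit 400) (T.l (nat_lit 1364600037919163392)) (T.l (nat_lit 106191188369425))) (T.n (nat_lit 402) (T.l (nat_lit 4986118176535274515)) (T.l (nat_lit 286448280618015)))) (T.n (nat_lit 405) (T.n (nat_lit 404) (T.l (nat_lit 649336787583476)) (T.l (nat_lit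 307710105729430385587553326))) (T.n (nat_lit 406) (T.l (nat_lit 559653433623588)) (T.l (nat_lit 561369482338337))))) (T.n (nat_lit 411) (T.n (nat_lit 409) (T.n (nat_lit 408) (T.l (nat_lit 5683746210805965827)) (T.l (nat_lit 39697605511207036805334))) (T.n (nat_lit 410) (T.l (nat_lit 37183286812699153892197518)) (T.l (nat_lit 649890771616924)))) (T.n (nat_lit 413) (T.n (nat_lit 412) (T.l (nat_lit 2416708)) (T.l (nat_lit 693878618113308))) (T.n (nat_lit 414) (T.l (nat_lit 693868620260619)) (T.l (nat_lit 45339335073749871304687788))))))) (T.n (nat_lit 431) (T.n (nat_lit 423) (T.n (nat_lit 419) (T.n (nat_lit 417) (T.n (nat_lit 416) (T.l (nat_lit 692227270673518)) (T.l (nat_lit 693868618097766))) (T.n (nat_lit 418) (T.l (nat_lit 692227270444235)) (T.l (nat_lit 6648139403798298650)))) (T.n (nat_lit 421) (T.n (nat_lit 420) (T.l (nat_lit 6391320905477358767)) (T.l (nat_lit 4791878399015986448))) (T.n (nat_lit 422) (T.l (nat_lit 41949027140228903003531)) (T.l (nat_lit 5534554741428373037242))))) (T.n (nat_lit 427) (T.n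 (nat_lit 425) (T.n (nat_lit 424) (T.l (nat_lit 79324972035)) (T.l (nat_lit 4742979891011993735))) (T.n (nat_lit 426) (T.l (nat_lit 68519618046)) (T.l (nat_lit 360868268387778433383646414)))) (T.n (nat_lit 429) (T.n (nat_lit 428) (T.l (nat_lit 478000668092564485)) (T.l (nat_lit 81873658294))) (T.n (nat_lit 430) (T.l (nat_lit 2751019544338640817651497223761)) (T.l (nat_lit 6649277092370988670410929)))))) (T.n (nat_lit 439) (T.n (nat_lit 435) (T.n (nat_lit 433) (T.n (nat_lit 432) (T.l (nat_lit 2736171025137549926566)) (T.l (nat_lit 599821050159233))) (T.n (nat_lit 434) (T.l (nat_lit 4914024238685913418)) (T.l (nat_lit 559656787338243)))) (T.n (nat_lit 437) (T.n (nat_lit 436) (T.l (nat_lit 2612339590628959316)) (T.l (nat_lit 10472474199241))) (T.n (nat_lit 438) (T.l (nat_lit 10472474199200)) (T.l (nat_lit 4692767927779124619))))) (T.n (nat_lit 443) (T.n (nat_lit 441) (T.n (nat_lit 440) (T.l (nat_lit 881492221)) (T.l (nat_lit 83560219103))) (T.n (nat_lit 442) (T.l (nat_lit 371434039984168669703128023221)) (T.l (nat_lit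 2181998530850238325772)))) (T.n (nat_lit 445) (T.n (nat_lit 444) (T.l (nat_lit 617286795337508107)) (T.l (nat_lit 50993570274436071621653))) (T.n (nat_lit 446) (T.l (nat_lit 311616127311121831325361446)) (T.l (nat_lit 311641476398368340563731876)))))))) (T.n (nat_lit 479) (T.n (nat_lit 463) (T.n (nat_lit 455) (T.n (nat_lit 451) (T.n (nat_lit 449) (T.n (nat_lit 448) (T.l (nat_lit 1426655111876171572308972203672322620392482)) (T.l (nat_lit 576213291147676))) (T.n (nat_lit 450) (T.l (nat_lit 276999142439471938610707672721983218757)) (T.l (nat_lit 104031127053)))) (T.n (nat_lit 453) (T.n (nat_lit 452) (T.l (nat_lit 6391306706989687814)) (T.l (nat_lit 4294310))) (T.n (nat_lit 454) (T.l (nat_lit 5071127955608323193)) (T.l (nat_lit 619111627211979))))) (T.n (nat_lit 459) (T.n (nat_lit 457) (T.n (nat_lit 456) (T.l (nat_lit 8922394)) (T.l (nat_lit 83626763348))) (T.n (nat_lit 458) (T.l (nat_lit 87652680868)) (T.l (nat_lit 87653040132)))) (T.n (nat_lit 461) (T.n (nat_lit 460) (T.l (nat_lit 11076906)) (T.l (nat_lit 90740917294)))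 (T.n (nat_lit 462) (T.l (nat_lit 38042171792334715756654)) (T.l (nat_lit 71479796745)))))) (T.n (nat_lit 471) (T.n (nat_lit 467) (T.n (nat_lit 465) (T.n (nat_lit 464) (T.l (nat_lit 38669018814461998915889)) (T.l (nat_lit 4720339210749756410))) (T.n (nat_lit 466) (T.l (nat_lit 311641471592470646852388168)) (T.l (nat_lit 8726016)))) (T.n (nat_lit 469) (T.n (nat_lit 468) (T.l (nat_lit 8856914)) (T.l (nat_lit 2552966933072202849528571781123))) (T.n (nat_lit 470) (T.l (nat_lit 570716741764375)) (T.l (nat_lit 69670077505))))) (T.n (nat_lit 475) (T.n (nat_lit 473) (T.n (nat_lit 472) (T.l (nat_lit 38669019383524627792924)) (T.l (nat_lit 79661597785))) (T.n (nat_lit 474) (T.l (nat_lit 73090416717)) (T.l (nat_lit 79736407283)))) (T.n (nat_lit 477) (T.n (nat_lit 476) (T.l (nat_lit 71480181769)) (T.l (nat_lit 87652680976))) (T.n (nat_lit 478) (T.l (nat_lit 38669019398361726903315)) (T.l (nat_lit 2552966937868356332870700400717))))))) (T.n (nat_lit 495) (T.n (nat_lit 487) (T.n (nat_lit 483) (T.n (nat_lit 481) (T.n (nat_lit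 480) (T.l (nat_lit 68392329866)) (T.l (nat_lit 68384556262))) (T.n (nat_lit 482) (T.l (nat_lit 71480590423)) (T.l (nat_lit 71479403674)))) (T.n (nat_lit 485) (T.n (nat_lit 484) (T.l (nat_lit 8725610)) (T.l (nat_lit 9733653))) (T.n (nat_lit 486) (T.l (nat_lit 560281245139020)) (T.l (nat_lit 79736407089))))) (T.n (nat_lit 491) (T.n (nat_lit 489) (T.n (nat_lit 488) (T.l (nat_lit 560830992426170)) (T.l (nat_lit 73887171010))) (T.n (nat_lit 490) (T.l (nat_lit 79735219246)) (T.l (nat_lit 5197725187491054594)))) (T.n (nat_lit 493) (T.n (nat_lit 492) (T.l (nat_lit 5395384385167328385)) (T.l (nat_lit 87184516261))) (T.n (nat_lit 494) (T.l (nat_lit 82755093755)) (T.l (nat_lit 73950)))))) (T.n (nat_lit 503) (T.n (nat_lit 499) (T.n (nat_lit 497) (T.n (nat_lit 496) (T.l (nat_lit 561369078497865)) (T.l (nat_lit 5449919128896765983))) (T.n (nat_lit 498) (T.l (nat_lit 26900518393687589551104095)) (T.l (nat_lit 547721944128441353893507070394457)))) (T.n (nat_lit 501) (T.n (nat_lit 500) (T.l (nat_lit 1057267953915750119278443365720163))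 (T.l (nat_lit 810431282603351))) (T.n (nat_lit 502) (T.l (nat_lit 813729817486678)) (T.l (nat_lit 2290852423))))) (T.n (nat_lit 507) (T.n (nat_lit 505) (T.n (nat_lit 504) (T.l (nat_lit 38005251873577904390181)) (T.l (nat_lit 692224913376377))) (T.n (nat_lit 506) (T.l (nat_lit 207179398032678963)) (T.l (nat_lit 3431661933)))) (T.n (nat_lit 509) (T.n (nat_lit 508) (T.l (nat_lit 414944216742347082)) (T.l (nat_lit 562961773052943))) (T.n (nat_lit 510) (T.l (nat_lit 5145059797273344282240292)) (T.l (nat_lit 628554062984917279984)))))))))))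
def h1 : T := (T.n (nat_lit 767) (T.n (nat_lit 639) (T.n (nat_lit 575) (T.n (nat_lit 543) (T.n (nat_lit 527) (T.n (nat_lit 519) (T.n (nat_lit 515) (T.n (nat_lit 513) (T.n (nat_lit 512) (T.l (nat_lit 28661332140072)) (T.l (nat_lit 635517932126226))) (T.n (nat_lit 514) (T.l (nat_lit 347433114151412113)) (T.l (nat_lit 1719203291216)))) (T.n (nat_lit 517) (T.n (nat_lit 516) (T.l (nat_lit 4625871439108333822)) (T.l (nat_lit 110793646527604687900))) (T.n (nat_lit 518) (T.l (nat_lit 87452583293)) (T.l (nat_lit 4679243379966476371))))) (T.n (nat_lit 523) (T.n (nat_lit 521) (T.n (nat_lit 520) (T.l (nat_lit 5450011479686258778)) (T.l (nat_lit 21258518212256207506078230922863700))) (T.n (nat_lit 522) (T.l (nat_lit 22087222383)) (T.l (nat_lit 180553)))) (T.n (nat_lit 525) (T.n (nat_lit 524) (T.l (nat_lit 568454499246088)) (T.l (nat_lit 38152460432546436456581))) (T.n (nat_lit 526) (T.l (nat_lit 4657338299902296072)) (T.l (nat_lit 311647895865357668062823844)))))) (T.n (nat_lit 535) (T.n (nat_lit 531) (T.n (nat_lit 529)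 (T.n (nat_lit 528) (T.l (nat_lit 2552947627231210047552160269395)) (T.l (nat_lit 39902373989837462021193850))) (T.n (nat_lit 530) (T.l (nat_lit 515310378837609123033970540797)) (T.l (nat_lit 4752057409474873172)))) (T.n (nat_lit 533) (T.n (nat_lit 532) (T.l (nat_lit 4824020495049211994)) (T.l (nat_lit 3753243))) (T.n (nat_lit 534) (T.l (nat_lit 5450089557292711967)) (T.l (nat_lit 5450089557284471805))))) (T.n (nat_lit 539) (T.n (nat_lit 537) (T.n (nat_lit 536) (T.l (nat_lit 83626673236)) (T.l (nat_lit 27122974739))) (T.n (nat_lit 538) (T.l (nat_lit 40361548669215004075290)) (T.l (nat_lit 3220555)))) (T.n (nat_lit 541) (T.n (nat_lit 540) (T.l (nat_lit 566253599204714)) (T.l (nat_lit 35705518387609900556665004))) (T.n (nat_lit 542) (T.l (nat_lit 6973400784136602240266)) (T.l (nat_lit 262491))))))) (T.n (nat_lit 559) (T.n (nat_lit 551) (T.n (nat_lit 547) (T.n (nat_lit 545) (T.n (nat_lit 544) (T.l (nat_lit 597035090878829)) (T.l (nat_lit 698820111466510))) (T.n (nat_lit 546) (T.l (nat_lit 464500300678471996)) (T.l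 (nat_lit 464169853750002873)))) (T.n (nat_lit 549) (T.n (nat_lit 548) (T.l (nat_lit 6924837460)) (T.l (nat_lit 56637737320992))) (T.n (nat_lit 550) (T.l (nat_lit 1054881250294392419887609019196486)) (T.l (nat_lit 4665965132818531766))))) (T.n (nat_lit 555) (T.n (nat_lit 553) (T.n (nat_lit 552) (T.l (nat_lit 2439762612336373407998)) (T.l (nat_lit 321612157896107920070623525))) (T.n (nat_lit 554) (T.l (nat_lit 39259296618177226604837)) (T.l (nat_lit 5810209293606871062)))) (T.n (nat_lit 557) (T.n (nat_lit 556) (T.l (nat_lit 327332679384817926894878748)) (T.l (nat_lit 2686497039537205701192961851426))) (T.n (nat_lit 558) (T.l (nat_lit 40772002233526966780354)) (T.l (nat_lit 183603615135143086277512399960762089563)))))) (T.n (nat_lit 567) (T.n (nat_lit 563) (T.n (nat_lit 561) (T.n (nat_lit 560) (T.l (nat_lit 655860439147750)) (T.l (nat_lit 655859633857766))) (T.n (nat_lit 562) (T.l (nat_lit 14095265692008466)) (T.l (nat_lit 4589731600070557722)))) (T.n (nat_lit 565) (T.n (nat_lit 564) (T.l (nat_lit 76565110552035521))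 (T.l (nat_lit 37857321521445809283155))) (T.n (nat_lit 566) (T.l (nat_lit 4598183005725402417)) (T.l (nat_lit 3067320699752267366406))))) (T.n (nat_lit 571) (T.n (nat_lit 569) (T.n (nat_lit 568) (T.l (nat_lit 761962506060975)) (T.l (nat_lit 4666332391311262967))) (T.n (nat_lit 570) (T.l (nat_lit 144261268)) (T.l (nat_lit 68526547585)))) (T.n (nat_lit 573) (T.n (nat_lit 572) (T.l (nat_lit 355431244221539647056740531)) (T.l (nat_lit 3220544))) (T.n (nat_lit 574) (T.l (nat_lit 9118784)) (T.l (nat_lit 746560)))))))) (T.n (nat_lit 607) (T.n (nat_lit 591) (T.n (nat_lit 583) (T.n (nat_lit 579) (T.n (nat_lit 577) (T.n (nat_lit 576) (T.l (nat_lit 69869839622)) (T.l (nat_lit 68997227791))) (T.n (nat_lit 578) (T.l (nat_lit 2203672)) (T.l (nat_lit 983051)))) (T.n (nat_lit 581) (T.n (nat_lit 580) (T.l (nat_lit 2277387)) (T.l (nat_lit 751165786))) (T.n (nat_lit 582) (T.l (nat_lit 8430703)) (T.l (nat_lit 77586277376))))) (T.n (nat_lit 587) (T.n (nat_lit 585) (T.n (nat_lit 584) (T.l (nat_lit 1482901)) (T.l (nat_lit 7785652373)))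 (T.n (nat_lit 586) (T.l (nat_lit 1359999)) (T.l (nat_lit 9127673983)))) (T.n (nat_lit 589) (T.n (nat_lit 588) (T.l (nat_lit 1229042)) (T.l (nat_lit 1409351))) (T.n (nat_lit 590) (T.l (nat_lit 4699029633)) (T.l (nat_lit 10789951)))))) (T.n (nat_lit 599) (T.n (nat_lit 595) (T.n (nat_lit 593) (T.n (nat_lit 592) (T.l (nat_lit 80808461375)) (T.l (nat_lit 1532033))) (T.n (nat_lit 594) (T.l (nat_lit 75171153078)) (T.l (nat_lit 75172242575)))) (T.n (nat_lit 597) (T.n (nat_lit 596) (T.l (nat_lit 9225359)) (T.l (nat_lit 1548397))) (T.n (nat_lit 598) (T.l (nat_lit 6914457789)) (T.l (nat_lit 2113835))))) (T.n (nat_lit 603) (T.n (nat_lit 601) (T.n (nat_lit 600) (T.l (nat_lit 2310285)) (T.l (nat_lit 77520469247158))) (T.n (nat_lit 602) (T.l (nat_lit 40141646628022)) (T.l (nat_lit 17315242186)))) (T.n (nat_lit 605) (T.n (nat_lit 604) (T.l (nat_lit 635584245738086529)) (T.l (nat_lit 4900103311))) (T.n (nat_lit 606) (T.l (nat_lit 1376553)) (T.l (nat_lit 11274887236))))))) (T.n (nat_lit 623) (T.n (nat_lit 615) (T.n (nat_lit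 611) (T.n (nat_lit 609) (T.n (nat_lit 608) (T.l (nat_lit 1024245)) (T.l (nat_lit 10634449))) (T.n (nat_lit 610) (T.l (nat_lit 294913)) (T.l (nat_lit 1302529)))) (T.n (nat_lit 613) (T.n (nat_lit 612) (T.l (nat_lit 80077098)) (T.l (nat_lit 1843255))) (T.n (nat_lit 614) (T.l (nat_lit 2646071)) (T.l (nat_lit 10790068))))) (T.n (nat_lit 619) (T.n (nat_lit 617) (T.n (nat_lit 616) (T.l (nat_lit 39406938207778668429315)) (T.l (nat_lit 30305222378490))) (T.n (nat_lit 618) (T.l (nat_lit 6115899458554)) (T.l (nat_lit 68326458397)))) (T.n (nat_lit 621) (T.n (nat_lit 620) (T.l (nat_lit 1016939761)) (T.l (nat_lit 1286159))) (T.n (nat_lit 622) (T.l (nat_lit 2039823)) (T.l (nat_lit 38553763269554061967597)))))) (T.n (nat_lit 631) (T.n (nat_lit 627) (T.n (nat_lit 625) (T.n (nat_lit 624) (T.l (nat_lit 2829491434935476522831855669)) (T.l (nat_lit 557353))) (T.n (nat_lit 626) (T.l (nat_lit 18858148056)) (T.l (nat_lit 5522732893616)))) (T.n (nat_lit 629) (T.n (nat_lit 628) (T.l (nat_lit 19529547942)) (T.l (nat_lit 1114385))) (T.n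 (nat_lit 630) (T.l (nat_lit 1769545)) (T.l (nat_lit 221734767854354449590))))) (T.n (nat_lit 635) (T.n (nat_lit 633) (T.n (nat_lit 632) (T.l (nat_lit 966932)) (T.l (nat_lit 57620))) (T.n (nat_lit 634) (T.l (nat_lit 471482507)) (T.l (nat_lit 7918903308)))) (T.n (nat_lit 637) (T.n (nat_lit 636) (T.l (nat_lit 90203219109)) (T.l (nat_lit 69266719894))) (T.n (nat_lit 638) (T.l (nat_lit 10052740)) (T.l (nat_lit 1630264))))))))) (T.n (nat_lit 703) (T.n (nat_lit 671) (T.n (nat_lit 655) (T.n (nat_lit 647) (T.n (nat_lit 643) (T.n (nat_lit 641) (T.n (nat_lit 640) (T.l (nat_lit 2531384)) (T.l (nat_lit 1679413))) (T.n (nat_lit 642) (T.l (nat_lit 2580533)) (T.l (nat_lit 75373823105)))) (T.n (nat_lit 645) (T.n (nat_lit 644) (T.l (nat_lit 4744256)) (T.l (nat_lit 8913508))) (T.n (nat_lit 646) (T.l (nat_lit 1179672)) (T.l (nat_lit 950517))))) (T.n (nat_lit 651) (T.n (nat_lit 649) (T.n (nat_lit 648) (T.l (nat_lit 12147654952)) (T.l (nat_lit 868625))) (T.n (nat_lit 650) (T.l (nat_lit 1138700)) (T.l (nat_lit 99531)))) (T.n (nat_lit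 653) (T.n (nat_lit 652) (T.l (nat_lit 9372801)) (T.l (nat_lit 1655083))) (T.n (nat_lit 654) (T.l (nat_lit 19128336586)) (T.l (nat_lit 9389221)))))) (T.n (nat_lit 663) (T.n (nat_lit 659) (T.n (nat_lit 657) (T.n (nat_lit 656) (T.l (nat_lit 573767)) (T.l (nat_lit 4700078267))) (T.n (nat_lit 658) (T.l (nat_lit 828816822282765494)) (T.l (nat_lit 844018)))) (T.n (nat_lit 661) (T.n (nat_lit 660) (T.l (nat_lit 10067222631)) (T.l (nat_lit 10577078))) (T.n (nat_lit 662) (T.l (nat_lit 9464784054)) (T.l (nat_lit 9487611))))) (T.n (nat_lit 667) (T.n (nat_lit 665) (T.n (nat_lit 664) (T.l (nat_lit 2450566)) (T.l (nat_lit 8930465))) (T.n (nat_lit 666) (T.l (nat_lit 72823882913)) (T.l (nat_lit 10634301)))) (T.n (nat_lit 669) (T.n (nat_lit 668) (T.l (nat_lit 4602781630557167946)) (T.l (nat_lit 747054184))) (T.n (nat_lit 670) (T.l (nat_lit 82754118722)) (T.l (nat_lit 86780150895))))))) (T.n (nat_lit 687) (T.n (nat_lit 679) (T.n (nat_lit 675) (T.n (nat_lit 673) (T.n (nat_lit 672) (T.l (nat_lit 10052608)) (T.l (nat_lit 55611214914125735080812647)))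 (T.n (nat_lit 674) (T.l (nat_lit 17842170529124164521976010)) (T.l (nat_lit 40150563397761)))) (T.n (nat_lit 677) (T.n (nat_lit 676) (T.l (nat_lit 77520471162989)) (T.l (nat_lit 154501517517042))) (T.n (nat_lit 678) (T.l (nat_lit 37964372139506744459367)) (T.l (nat_lit 828819016742618294))))) (T.n (nat_lit 683) (T.n (nat_lit 681) (T.n (nat_lit 680) (T.l (nat_lit 750412004)) (T.l (nat_lit 4603241288693957626))) (T.n (nat_lit 682) (T.l (nat_lit 559654975554575)) (T.l (nat_lit 568756044803)))) (T.n (nat_lit 685) (T.n (nat_lit 684) (T.l (nat_lit 20293368843803111318587)) (T.l (nat_lit 592046340480084894186907271237))) (T.n (nat_lit 686) (T.l (nat_lit 211110670532757)) (T.l (nat_lit 201069932084580875373868883623114924650)))))) (T.n (nat_lit 695) (T.n (nat_lit 691) (T.n (nat_lit 689) (T.n (nat_lit 688) (T.l (nat_lit 5064418954035379)) (T.l (nat_lit 2547682117213180812625086374100))) (T.n (nat_lit 690) (T.l (nat_lit 10519665693404258976831)) (T.l (nat_lit 12464331712240729218262401127)))) (T.n (nat_lit 693) (T.n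 (nat_lit 692) (T.l (nat_lit 156685315769487)) (T.l (nat_lit 100059439484))) (T.n (nat_lit 694) (T.l (nat_lit 104670341270873996655766177611879)) (T.l (nat_lit 154562183931023))))) (T.n (nat_lit 699) (T.n (nat_lit 697) (T.n (nat_lit 696) (T.l (nat_lit 11797126877296384701741609292979178348646974539)) (T.l (nat_lit 3699844200))) (T.n (nat_lit 698) (T.l (nat_lit 22953903552128803747425834624034)) (T.l (nat_lit 24263157138196506206180284875017741355)))) (T.n (nat_lit 701) (T.n (nat_lit 700) (T.l (nat_lit 663555343336725)) (T.l (nat_lit 2193055369944117542014071540051218499497953543175))) (T.n (nat_lit 702) (T.l (nat_lit 3768476951)) (T.l (nat_lit 3699844250)))))))) (T.n (nat_lit 735) (T.n (nat_lit 719) (T.n (nat_lit 711) (T.n (nat_lit 707) (T.n (nat_lit 705) (T.n (nat_lit 704) (T.l (nat_lit 12644459791655)) (T.l (nat_lit 819685997610290))) (T.n (nat_lit 706) (T.l (nat_lit 46546079354268535019618428)) (T.l (nat_lit 46454319973659501158566)))) (T.n (nat_lit 709) (T.n (nat_lit 708) (T.l (nat_lit 16493689390080)) (T.l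 (nat_lit 30854650871838))) (T.n (nat_lit 710) (T.l (nat_lit 13262464761886)) (T.l (nat_lit 44383682085029440168232))))) (T.n (nat_lit 715) (T.n (nat_lit 713) (T.n (nat_lit 712) (T.l (nat_lit 740547263153653)) (T.l (nat_lit 150653226819881))) (T.n (nat_lit 714) (T.l (nat_lit 40150564700459)) (T.l (nat_lit 4629939040027107343)))) (T.n (nat_lit 717) (T.n (nat_lit 716) (T.l (nat_lit 15977371160861102022680)) (T.l (nat_lit 76629460))) (T.n (nat_lit 718) (T.l (nat_lit 13222669706248)) (T.l (nat_lit 3693978632)))))) (T.n (nat_lit 727) (T.n (nat_lit 723) (T.n (nat_lit 721) (T.n (nat_lit 720) (T.l (nat_lit 6075843675234)) (T.l (nat_lit 68155977774195026))) (T.n (nat_lit 722) (T.l (nat_lit 69891669017668)) (T.l (nat_lit 600340396237130)))) (T.n (nat_lit 725) (T.n (nat_lit 724) (T.l (nat_lit 84500848970)) (T.l (nat_lit 43835287090035498631177))) (T.n (nat_lit 726) (T.l (nat_lit 622644494761)) (T.l (nat_lit 5682155756853068906623))))) (T.n (nat_lit 731) (T.n (nat_lit 729) (T.n (nat_lit 728) (T.l (nat_lit 56522153358574038308144331))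 (T.l (nat_lit 4598348944404071516))) (T.n (nat_lit 730) (T.l (nat_lit 545211497)) (T.l (nat_lit 546022394)))) (T.n (nat_lit 733) (T.n (nat_lit 732) (T.l (nat_lit 77846348794)) (T.l (nat_lit 180706453609317640))) (T.n (nat_lit 734) (T.l (nat_lit 1622827532)) (T.l (nat_lit 239162176258212))))))) (T.n (nat_lit 751) (T.n (nat_lit 743) (T.n (nat_lit 739) (T.n (nat_lit 737) (T.n (nat_lit 736) (T.l (nat_lit 40151302684999)) (T.l (nat_lit 2066102903447584981022))) (T.n (nat_lit 738) (T.l (nat_lit 203482808517835)) (T.l (nat_lit 410535218440546657378)))) (T.n (nat_lit 741) (T.n (nat_lit 740) (T.l (nat_lit 37742619903211482382652)) (T.l (nat_lit 959344237006028909))) (T.n (nat_lit 742) (T.l (nat_lit 9113650896857845465298)) (T.l (nat_lit 40151310320805))))) (T.n (nat_lit 747) (T.n (nat_lit 745) (T.n (nat_lit 744) (T.l (nat_lit 44388279730833265050780)) (T.l (nat_lit 41410251828034951333667842))) (T.n (nat_lit 746) (T.l (nat_lit 599787158176169)) (T.l (nat_lit 56857657454472406884594)))) (T.n (nat_lit 749) (T.n (nat_lit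 748) (T.l (nat_lit 431636471390637585221198856)) (T.l (nat_lit 50147146207175778))) (T.n (nat_lit 750) (T.l (nat_lit 55162042806596641178624)) (T.l (nat_lit 2527999030920268387692733343230)))))) (T.n (nat_lit 759) (T.n (nat_lit 755) (T.n (nat_lit 753) (T.n (nat_lit 752) (T.l (nat_lit 37854201085930745716929)) (T.l (nat_lit 9113425774600837873769))) (T.n (nat_lit 754) (T.l (nat_lit 624859161139)) (T.l (nat_lit 30306439766579)))) (T.n (nat_lit 757) (T.n (nat_lit 756) (T.l (nat_lit 5054880910854276137089)) (T.l (nat_lit 89465565613437307997692013))) (T.n (nat_lit 758) (T.l (nat_lit 56634320855478)) (T.l (nat_lit 1920280848365511001123))))) (T.n (nat_lit 763) (T.n (nat_lit 761) (T.n (nat_lit 760) (T.l (nat_lit 40686561632529)) (T.l (nat_lit 671086933020099787))) (T.n (nat_lit 762) (T.l (nat_lit 135799149273217)) (T.l (nat_lit 247711174392079463)))) (T.n (nat_lit 765) (T.n (nat_lit 764) (T.l (nat_lit 156685306798209)) (T.l (nat_lit 6116839392440))) (T.n (nat_lit 766) (T.l (nat_lit 68988568681)) (T.l (nat_lit 155584460522548))))))))))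 (T.n (nat_lit 895) (T.n (nat_lit 831) (T.n (nat_lit 799) (T.n (nat_lit 783) (T.n (nat_lit 775) (T.n (nat_lit 771) (T.n (nat_lit 769) (T.n (nat_lit 768) (T.l (nat_lit 30805325808680)) (T.l (nat_lit 156699265442119))) (T.n (nat_lit 770) (T.l (nat_lit 82817026665541794985582667)) (T.l (nat_lit 150651951751495)))) (T.n (nat_lit 773) (T.n (nat_lit 772) (T.l (nat_lit 7748591932160363086010)) (T.l (nat_lit 520017633526336059805362905237))) (T.n (nat_lit 774) (T.l (nat_lit 369605943675581472843)) (T.l (nat_lit 41542662244601632178403))))) (T.n (nat_lit 779) (T.n (nat_lit 777) (T.n (nat_lit 776) (T.l (nat_lit 23826105465)) (T.l (nat_lit 11911829))) (T.n (nat_lit 778) (T.l (nat_lit 3589387)) (T.l (nat_lit 4096242)))) (T.n (nat_lit 781) (T.n (nat_lit 780) (T.l (nat_lit 9298238)) (T.l (nat_lit 3474507))) (T.n (nat_lit 782) (T.l (nat_lit 10208331)) (T.l (nat_lit 6481233)))))) (T.n (nat_lit 791) (T.n (nat_lit 787) (T.n (nat_lit 785) (T.n (nat_lit 784) (T.l (nat_lit 10208320)) (T.l (nat_lit 11183168))) (T.n (nat_lit 786)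 (T.l (nat_lit 4432974)) (T.l (nat_lit 3187995)))) (T.n (nat_lit 789) (T.n (nat_lit 788) (T.l (nat_lit 3818779)) (T.l (nat_lit 2123035))) (T.n (nat_lit 790) (T.l (nat_lit 14811715)) (T.l (nat_lit 13345396))))) (T.n (nat_lit 795) (T.n (nat_lit 793) (T.n (nat_lit 792) (T.l (nat_lit 11804936)) (T.l (nat_lit 1951003))) (T.n (nat_lit 794) (T.l (nat_lit 2155803)) (T.l (nat_lit 11076955)))) (T.n (nat_lit 797) (T.n (nat_lit 796) (T.l (nat_lit 10380635)) (T.l (nat_lit 10675547))) (T.n (nat_lit 798) (T.l (nat_lit 10364444)) (T.l (nat_lit 9266716))))))) (T.n (nat_lit 815) (T.n (nat_lit 807) (T.n (nat_lit 803) (T.n (nat_lit 801) (T.n (nat_lit 800) (T.l (nat_lit 9266629)) (T.l (nat_lit 10307013))) (T.n (nat_lit 802) (T.l (nat_lit 10380807)) (T.l (nat_lit 10298672)))) (T.n (nat_lit 805) (T.n (nat_lit 804) (T.l (nat_lit 9266480)) (T.l (nat_lit 10306864))) (T.n (nat_lit 806) (T.l (nat_lit 10364208)) (T.l (nat_lit 10306808))))) (T.n (nat_lit 811) (T.n (nat_lit 809) (T.n (nat_lit 808) (T.l (nat_lit 9479416)) (T.l (nat_lit 10298616)))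 (T.n (nat_lit 810) (T.l (nat_lit 8856682)) (T.l (nat_lit 10364152)))) (T.n (nat_lit 813) (T.n (nat_lit 812) (T.l (nat_lit 11470072)) (T.l (nat_lit 9651306))) (T.n (nat_lit 814) (T.l (nat_lit 4744281)) (T.l (nat_lit 2852062)))))) (T.n (nat_lit 823) (T.n (nat_lit 819) (T.n (nat_lit 817) (T.n (nat_lit 816) (T.l (nat_lit 6718537)) (T.l (nat_lit 13590590))) (T.n (nat_lit 818) (T.l (nat_lit 5374550)) (T.l (nat_lit 4170407)))) (T.n (nat_lit 821) (T.n (nat_lit 820) (T.l (nat_lit 3727808)) (T.l (nat_lit 3965614))) (T.n (nat_lit 822) (T.l (nat_lit 697408)) (T.l (nat_lit 9004096))))) (T.n (nat_lit 827) (T.n (nat_lit 825) (T.n (nat_lit 824) (T.l (nat_lit 11552203)) (T.l (nat_lit 4539567))) (T.n (nat_lit 826) (T.l (nat_lit 15041557)) (T.l (nat_lit 337596)))) (T.n (nat_lit 829) (T.n (nat_lit 828) (T.l (nat_lit 18799355041)) (T.l (nat_lit 48552362388611160604865))) (T.n (nat_lit 830) (T.l (nat_lit 3022946350585167288328342)) (T.l (nat_lit 92890882428)))))))) (T.n (nat_lit 863) (T.n (nat_lit 847) (T.n (nat_lit 839) (T.n (nat_lit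 835) (T.n (nat_lit 833) (T.n (nat_lit 832) (T.l (nat_lit 39956404422338276311143)) (T.l (nat_lit 1261048591821530152))) (T.n (nat_lit 834) (T.l (nat_lit 18791833666)) (T.l (nat_lit 18790966275)))) (T.n (nat_lit 837) (T.n (nat_lit 836) (T.l (nat_lit 2293819)) (T.l (nat_lit 2293826))) (T.n (nat_lit 838) (T.l (nat_lit 468935731332088045)) (T.l (nat_lit 4594405546018219313))))) (T.n (nat_lit 843) (T.n (nat_lit 841) (T.n (nat_lit 840) (T.l (nat_lit 561369483460622)) (T.l (nat_lit 561301635278129))) (T.n (nat_lit 842) (T.l (nat_lit 69332182064)) (T.l (nat_lit 4616749820984878385)))) (T.n (nat_lit 845) (T.n (nat_lit 844) (T.l (nat_lit 562468581753857)) (T.l (nat_lit 562468581605460))) (T.n (nat_lit 846) (T.l (nat_lit 61579371078827)) (T.l (nat_lit 4972031232620617736)))))) (T.n (nat_lit 855) (T.n (nat_lit 851) (T.n (nat_lit 849) (T.n (nat_lit 848) (T.l (nat_lit 71675256927)) (T.l (nat_lit 128757893082747666374740091932))) (T.n (nat_lit 850) (T.l (nat_lit 4584693561487826974)) (T.l (nat_lit 12998941064032999049543718))))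 (T.n (nat_lit 853) (T.n (nat_lit 852) (T.l (nat_lit 390236180049252450442964556745079153440704745551348342629225642029889790614397003243699)) (T.l (nat_lit 40551708900149345566972))) (T.n (nat_lit 854) (T.l (nat_lit 7711897067563113373971)) (T.l (nat_lit 33605096753059623354492761335662162331575399))))) (T.n (nat_lit 859) (T.n (nat_lit 857) (T.n (nat_lit 856) (T.l (nat_lit 519374245411841755727460905922707506)) (T.l (nat_lit 63659841578414548971541083661320))) (T.n (nat_lit 858) (T.l (nat_lit 8716568)) (T.l (nat_lit 71281402897)))) (T.n (nat_lit 861) (T.n (nat_lit 860) (T.l (nat_lit 1284112649)) (T.l (nat_lit 21993730892973))) (T.n (nat_lit 862) (T.l (nat_lit 311941346098143773329597434)) (T.l (nat_lit 69200807547))))))) (T.n (nat_lit 879) (T.n (nat_lit 871) (T.n (nat_lit 867) (T.n (nat_lit 865) (T.n (nat_lit 864) (T.l (nat_lit 124833693641853918471988314)) (T.l (nat_lit 613050616546371))) (T.n (nat_lit 866) (T.l (nat_lit 72553407642)) (T.l (nat_lit 72553406483)))) (T.n (nat_lit 869) (T.n (nat_lit 868) (T.l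 (nat_lit 175794218276749132798444265013827281961)) (T.l (nat_lit 5179924626204050500))) (T.n (nat_lit 870) (T.l (nat_lit 4891167611371299931)) (T.l (nat_lit 319801720699912343255188549))))) (T.n (nat_lit 875) (T.n (nat_lit 873) (T.n (nat_lit 872) (T.l (nat_lit 348211482441696046265599004)) (T.l (nat_lit 334613645398497219672924559))) (T.n (nat_lit 874) (T.l (nat_lit 319803385572547162808526244)) (T.l (nat_lit 21461530515674909761432045588145264)))) (T.n (nat_lit 877) (T.n (nat_lit 876) (T.l (nat_lit 373970843111309321)) (T.l (nat_lit 11819541514))) (T.n (nat_lit 878) (T.l (nat_lit 680134)) (T.l (nat_lit 2760778)))))) (T.n (nat_lit 887) (T.n (nat_lit 883) (T.n (nat_lit 881) (T.n (nat_lit 880) (T.l (nat_lit 2761819)) (T.l (nat_lit 770736579604052691635174516457506))) (T.n (nat_lit 882) (T.l (nat_lit 94395043694201953659433198626)) (T.l (nat_lit 1414039131323203245258488348721)))) (T.n (nat_lit 885) (T.n (nat_lit 884) (T.l (nat_lit 1402893863568244531219)) (T.l (nat_lit 68655096837))) (T.n (nat_lit 886) (T.l (nat_lit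 4607279244551143727)) (T.l (nat_lit 4612246221615194150))))) (T.n (nat_lit 891) (T.n (nat_lit 889) (T.n (nat_lit 888) (T.l (nat_lit 4778940499509657637)) (T.l (nat_lit 309829747182343843221947416))) (T.n (nat_lit 890) (T.l (nat_lit 37820567775192465940615)) (T.l (nat_lit 47753570863441368809037840)))) (T.n (nat_lit 893) (T.n (nat_lit 892) (T.l (nat_lit 117718150243389)) (T.l (nat_lit 14363378713))) (T.n (nat_lit 894) (T.l (nat_lit 4639272234407591938)) (T.l (nat_lit 564669626777893))))))))) (T.n (nat_lit 959) (T.n (nat_lit 927) (T.n (nat_lit 911) (T.n (nat_lit 903) (T.n (nat_lit 899) (T.n (nat_lit 897) (T.n (nat_lit 896) (T.l (nat_lit 14369734732)) (T.l (nat_lit 180172643474169881))) (T.n (nat_lit 898) (T.l (nat_lit 8356009)) (T.l (nat_lit 183069156466693)))) (T.n (nat_lit 901) (T.n (nat_lit 900) (T.l (nat_lit 183069164191749)) (T.l (nat_lit 138000520529009))) (T.n (nat_lit 902) (T.l (nat_lit 2936711153774839605864268636192)) (T.l (nat_lit 333099611121029499342357774))))) (T.n (nat_lit 907) (T.n (nat_lit 905)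 (T.n (nat_lit 904) (T.l (nat_lit 316776606510555609868664877)) (T.l (nat_lit 6500938600079038736444704991192228919))) (T.n (nat_lit 906) (T.l (nat_lit 59545430524961047831331905)) (T.l (nat_lit 1886450381356469026832)))) (T.n (nat_lit 909) (T.n (nat_lit 908) (T.l (nat_lit 69131116620)) (T.l (nat_lit 560281235440945))) (T.n (nat_lit 910) (T.l (nat_lit 4607745437282934817)) (T.l (nat_lit 2760778580235840624479921496148)))))) (T.n (nat_lit 919) (T.n (nat_lit 915) (T.n (nat_lit 913) (T.n (nat_lit 912) (T.l (nat_lit 633392990601407)) (T.l (nat_lit 15462689865910))) (T.n (nat_lit 914) (T.l (nat_lit 8577294)) (T.l (nat_lit 20592754302421325032458728922103601956011)))) (T.n (nat_lit 917) (T.n (nat_lit 916) (T.l (nat_lit 152546504446681604119)) (T.l (nat_lit 70812753996))) (T.n (nat_lit 918) (T.l (nat_lit 38558667090311143063575)) (T.l (nat_lit 13490832568))))) (T.n (nat_lit 923) (T.n (nat_lit 921) (T.n (nat_lit 920) (T.l (nat_lit 37562214718754118468616)) (T.l (nat_lit 38484551925146030072922))) (T.n (nat_lit 922)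 (T.l (nat_lit 988234940934389396787173474342)) (T.l (nat_lit 4692788777083887953)))) (T.n (nat_lit 925) (T.n (nat_lit 924) (T.l (nat_lit 4891468946814205967)) (T.l (nat_lit 3869295812617))) (T.n (nat_lit 926) (T.l (nat_lit 590507948491914)) (T.l (nat_lit 569627488469006))))))) (T.n (nat_lit 943) (T.n (nat_lit 935) (T.n (nat_lit 931) (T.n (nat_lit 929) (T.n (nat_lit 928) (T.l (nat_lit 69937258527)) (T.l (nat_lit 69131952154))) (T.n (nat_lit 930) (T.l (nat_lit 38812165714934612739137)) (T.l (nat_lit 565229442072838)))) (T.n (nat_lit 933) (T.n (nat_lit 932) (T.l (nat_lit 10199434)) (T.l (nat_lit 38005251256205422927909))) (T.n (nat_lit 934) (T.l (nat_lit 73090056195)) (T.l (nat_lit 38005197782484909286397))))) (T.n (nat_lit 939) (T.n (nat_lit 937) (T.n (nat_lit 936) (T.l (nat_lit 310734929044091003029455952)) (T.l (nat_lit 83350192208))) (T.n (nat_lit 938) (T.l (nat_lit 37927325471232332595232)) (T.l (nat_lit 8593688)))) (T.n (nat_lit 941) (T.n (nat_lit 940) (T.l (nat_lit 314926324648769024007094319)) (T.l (nat_lit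 566250242123190))) (T.n (nat_lit 942) (T.l (nat_lit 117096409219497996)) (T.l (nat_lit 4630296903609098674)))))) (T.n (nat_lit 951) (T.n (nat_lit 947) (T.n (nat_lit 945) (T.n (nat_lit 944) (T.l (nat_lit 6259499834878356020722323330337163527551664233481714589733)) (T.l (nat_lit 566868577362090))) (T.n (nat_lit 946) (T.l (nat_lit 41030346719251167993874)) (T.l (nat_lit 68392509466)))) (T.n (nat_lit 949) (T.n (nat_lit 948) (T.l (nat_lit 23368076974260571863442096592372750)) (T.l (nat_lit 1686462540))) (T.n (nat_lit 950) (T.l (nat_lit 948102141)) (T.l (nat_lit 652083748495530))))) (T.n (nat_lit 955) (T.n (nat_lit 953) (T.n (nat_lit 952) (T.l (nat_lit 76312600711)) (T.l (nat_lit 2530353409785107859845353866265))) (T.n (nat_lit 954) (T.l (nat_lit 1074910770339317268493)) (T.l (nat_lit 591007433095626904773696183074887)))) (T.n (nat_lit 957) (T.n (nat_lit 956) (T.l (nat_lit 1284145556)) (T.l (nat_lit 30858946887681))) (T.n (nat_lit 958) (T.l (nat_lit 608658678956228)) (T.l (nat_lit 747209899861334)))))))) (T.n (nat_lit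 991) (T.n (nat_lit 975) (T.n (nat_lit 967) (T.n (nat_lit 963) (T.n (nat_lit 961) (T.n (nat_lit 960) (T.l (nat_lit 8536233)) (T.l (nat_lit 2391636269174957145))) (T.n (nat_lit 962) (T.l (nat_lit 8348298)) (T.l (nat_lit 560206744428620)))) (T.n (nat_lit 965) (T.n (nat_lit 964) (T.l (nat_lit 382807623164036096)) (T.l (nat_lit 317985975110605103896405154))) (T.n (nat_lit 966) (T.l (nat_lit 1686463567)) (T.l (nat_lit 21339677557604982875089729952998536))))) (T.n (nat_lit 971) (T.n (nat_lit 969) (T.n (nat_lit 968) (T.l (nat_lit 519800175976948435214017362594373648)) (T.l (nat_lit 69525054537))) (T.n (nat_lit 970) (T.l (nat_lit 73886966025)) (T.l (nat_lit 76311765243)))) (T.n (nat_lit 973) (T.n (nat_lit 972) (T.l (nat_lit 336726907957861567166431269)) (T.l (nat_lit 5570076678))) (T.n (nat_lit 974) (T.l (nat_lit 9797830)) (T.l (nat_lit 68795212027)))))) (T.n (nat_lit 983) (T.n (nat_lit 979) (T.n (nat_lit 977) (T.n (nat_lit 976) (T.l (nat_lit 1650487084122)) (T.l (nat_lit 71881990355))) (T.n (nat_lit 978) (T.l (nat_lit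 560269961151794)) (T.l (nat_lit 15951346949999288369205457190467756048)))) (T.n (nat_lit 981) (T.n (nat_lit 980) (T.l (nat_lit 15951344478759973788246601648352674814)) (T.l (nat_lit 237686943063395769015157318699))) (T.n (nat_lit 982) (T.l (nat_lit 164779729098168572367635931456510)) (T.l (nat_lit 29015326849209203562766342))))) (T.n (nat_lit 987) (T.n (nat_lit 985) (T.n (nat_lit 984) (T.l (nat_lit 29015215840532226832982281)) (T.l (nat_lit 432349964094358526))) (T.n (nat_lit 986) (T.l (nat_lit 6639057396884440379)) (T.l (nat_lit 37820424088724803231758)))) (T.n (nat_lit 989) (T.n (nat_lit 988) (T.l (nat_lit 37820667549804432195744)) (T.l (nat_lit 4616750437647065119))) (T.n (nat_lit 990) (T.l (nat_lit 560854086762527)) (T.l (nat_lit 318287358015246125176087782))))))) (T.n (nat_lit 1007) (T.n (nat_lit 999) (T.n (nat_lit 995) (T.n (nat_lit 993) (T.n (nat_lit 992) (T.l (nat_lit 21359903021964466031789942137054380)) (T.l (nat_lit 38853666935214300357193))) (T.n (nat_lit 994) (T.l (nat_lit 80264987647)) (T.l (nat_lit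 31407808582)))) (T.n (nat_lit 997) (T.n (nat_lit 996) (T.l (nat_lit 169497237240754608015935840234357153897)) (T.l (nat_lit 563579972116806))) (T.n (nat_lit 998) (T.l (nat_lit 268706828)) (T.l (nat_lit 2672219))))) (T.n (nat_lit 1003) (T.n (nat_lit 1001) (T.n (nat_lit 1000) (T.l (nat_lit 8987178)) (T.l (nat_lit 9822583))) (T.n (nat_lit 1002) (T.l (nat_lit 2213094)) (T.l (nat_lit 93549774107)))) (T.n (nat_lit 1005) (T.n (nat_lit 1004) (T.l (nat_lit 20690581033357045581766439246495814)) (T.l (nat_lit 147723145912280843716))) (T.n (nat_lit 1006) (T.l (nat_lit 1088)) (T.l (nat_lit 945179461604149621367868)))))) (T.n (nat_lit 1015) (T.n (nat_lit 1011) (T.n (nat_lit 1009) (T.n (nat_lit 1008) (T.l (nat_lit 21887288343)) (T.l (nat_lit 8597318249664183723278))) (T.n (nat_lit 1010) (T.l (nat_lit 70428710809274056502125643)) (T.l (nat_lit 4726425695869187715255849182216584)))) (T.n (nat_lit 1013) (T.n (nat_lit 1012) (T.l (nat_lit 7742914428848556651964474451)) (T.l (nat_lit 907363253425567575490577))) (T.n (nat_lit 1014)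 (T.l (nat_lit 576956261701038433334027535630)) (T.l (nat_lit 4726390775394902596474502263178318))))) (T.n (nat_lit 1019) (T.n (nat_lit 1017) (T.n (nat_lit 1016) (T.l (nat_lit 13520766167490572)) (T.l (nat_lit 4653511567830373474319))) (T.n (nat_lit 1018) (T.l (nat_lit 13593815029964893)) (T.l (nat_lit 211043351)))) (T.n (nat_lit 1021) (T.n (nat_lit 1020) (T.l (nat_lit 72150425917)) (T.l (nat_lit 561301021573153))) (T.n (nat_lit 1022) (T.l (nat_lit 7433122386803231496990605363)) (T.l (nat_lit 498828261038394518725409925859991613)))))))))))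
def h2 : T := (T.n (nat_lit 1279) (T.n (nat_lit 1151) (T.n (nat_lit 1087) (T.n (nat_lit 1055) (T.n (nat_lit 1039) (T.n (nat_lit 1031) (T.n (nat_lit 1027) (T.n (nat_lit 1025) (T.n (nat_lit 1024) (T.l (nat_lit 33475799734397414281306517587234900557070381)) (T.l (nat_lit 205498953879892683603987923120))) (T.n (nat_lit 1026) (T.l (nat_lit 588857142247635)) (T.l (nat_lit 588811294367955)))) (T.n (nat_lit 1029) (T.n (nat_lit 1028) (T.l (nat_lit 22817694892)) (T.l (nat_lit 1623039))) (T.n (nat_lit 1030) (T.l (nat_lit 68526546977)) (T.l (nat_lit 7433125712026487380022861957))))) (T.n (nat_lit 1035) (T.n (nat_lit 1033) (T.n (nat_lit 1032) (T.l (nat_lit 1400602721072278715651817594818791717331101)) (T.l (nat_lit 274232361715317103557478051545710071300244488313))) (T.n (nat_lit 1034) (T.l (nat_lit 2547681508212380878019829597193)) (T.l (nat_lit 13520700065259526)))) (T.n (nat_lit 1037) (T.n (nat_lit 1036) (T.l (nat_lit 13520763282587660)) (T.l (nat_lit 13520770193949697))) (T.n (nat_lit 1038) (T.l (nat_lit 591056164536637))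 (T.l (nat_lit 1877176)))))) (T.n (nat_lit 1047) (T.n (nat_lit 1043) (T.n (nat_lit 1041) (T.n (nat_lit 1040) (T.l (nat_lit 1394198)) (T.l (nat_lit 201475298))) (T.n (nat_lit 1042) (T.l (nat_lit 403334169)) (T.l (nat_lit 28991473073)))) (T.n (nat_lit 1045) (T.n (nat_lit 1044) (T.l (nat_lit 26240042400)) (T.l (nat_lit 2554766657))) (T.n (nat_lit 1046) (T.l (nat_lit 2483045697)) (T.l (nat_lit 874489153))))) (T.n (nat_lit 1051) (T.n (nat_lit 1049) (T.n (nat_lit 1048) (T.l (nat_lit 201393245)) (T.l (nat_lit 1553711108))) (T.n (nat_lit 1050) (T.l (nat_lit 3304113308687)) (T.l (nat_lit 559653440946492)))) (T.n (nat_lit 1053) (T.n (nat_lit 1052) (T.l (nat_lit 569552391930883)) (T.l (nat_lit 561301032869921))) (T.n (nat_lit 1054) (T.l (nat_lit 172073973080367)) (T.l (nat_lit 45701882978464))))))) (T.n (nat_lit 1071) (T.n (nat_lit 1063) (T.n (nat_lit 1059) (T.n (nat_lit 1057) (T.n (nat_lit 1056) (T.l (nat_lit 9895815676207)) (T.l (nat_lit 563018605830460))) (T.n (nat_lit 1058) (T.l (nat_lit 562950297370940)) (T.l (nat_lit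 4594439632215655486)))) (T.n (nat_lit 1061) (T.n (nat_lit 1060) (T.l (nat_lit 27025451627684152)) (T.l (nat_lit 4589213718809886942))) (T.n (nat_lit 1062) (T.l (nat_lit 13520707984770137)) (T.l (nat_lit 38080510909046900139338))))) (T.n (nat_lit 1067) (T.n (nat_lit 1065) (T.n (nat_lit 1064) (T.l (nat_lit 38853666472855836091411)) (T.l (nat_lit 11548036150762171023672))) (T.n (nat_lit 1066) (T.l (nat_lit 41104647141635179832344)) (T.l (nat_lit 473348512797731118921843114)))) (T.n (nat_lit 1069) (T.n (nat_lit 1068) (T.l (nat_lit 371178895694888080541754961)) (T.l (nat_lit 308313683065095889043375166))) (T.n (nat_lit 1070) (T.l (nat_lit 334911969800526189283042323)) (T.l (nat_lit 970667739716444449528547680744)))))) (T.n (nat_lit 1079) (T.n (nat_lit 1075) (T.n (nat_lit 1073) (T.n (nat_lit 1072) (T.l (nat_lit 558994265636474610359519656205602133207835704)) (T.l (nat_lit 88586256406))) (T.n (nat_lit 1074) (T.l (nat_lit 89458843655)) (T.l (nat_lit 97178206277)))) (T.n (nat_lit 1077) (T.n (nat_lit 1076) (T.l (nat_lit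 82614034442)) (T.l (nat_lit 94023393348))) (T.n (nat_lit 1078) (T.l (nat_lit 35643810205)) (T.l (nat_lit 35643810044))))) (T.n (nat_lit 1083) (T.n (nat_lit 1081) (T.n (nat_lit 1080) (T.l (nat_lit 27259240955)) (T.l (nat_lit 27259240862))) (T.n (nat_lit 1082) (T.l (nat_lit 26319495619)) (T.l (nat_lit 26319495584)))) (T.n (nat_lit 1085) (T.n (nat_lit 1084) (T.l (nat_lit 16388)) (T.l (nat_lit 24580))) (T.n (nat_lit 1086) (T.l (nat_lit 17402)) (T.l (nat_lit 25594)))))))) (T.n (nat_lit 1119) (T.n (nat_lit 1103) (T.n (nat_lit 1095) (T.n (nat_lit 1091) (T.n (nat_lit 1089) (T.n (nat_lit 1088) (T.l (nat_lit 618282312700)) (T.l (nat_lit 1555193860))) (T.n (nat_lit 1090) (T.l (nat_lit 1554726916)) (T.l (nat_lit 442404)))) (T.n (nat_lit 1093) (T.n (nat_lit 1092) (T.l (nat_lit 475172)) (T.l (nat_lit 442369))) (T.n (nat_lit 1094) (T.l (nat_lit 475137)) (T.l (nat_lit 559722092979247))))) (T.n (nat_lit 1099) (T.n (nat_lit 1097) (T.n (nat_lit 1096) (T.l (nat_lit 2419164641)) (T.l (nat_lit 2419164596))) (T.n (nat_lit 1098) (T.l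 (nat_lit 884840)) (T.l (nat_lit 1089640)))) (T.n (nat_lit 1101) (T.n (nat_lit 1100) (T.l (nat_lit 885809)) (T.l (nat_lit 1090609))) (T.n (nat_lit 1102) (T.l (nat_lit 1925319)) (T.l (nat_lit 2957511)))))) (T.n (nat_lit 1111) (T.n (nat_lit 1107) (T.n (nat_lit 1105) (T.n (nat_lit 1104) (T.l (nat_lit 1925176)) (T.l (nat_lit 2957368))) (T.n (nat_lit 1106) (T.l (nat_lit 761957)) (T.l (nat_lit 991333)))) (T.n (nat_lit 1109) (T.n (nat_lit 1108) (T.l (nat_lit 762926)) (T.l (nat_lit 992302))) (T.n (nat_lit 1110) (T.l (nat_lit 2138317)) (T.l (nat_lit 3080397))))) (T.n (nat_lit 1115) (T.n (nat_lit 1113) (T.n (nat_lit 1112) (T.l (nat_lit 2138165)) (T.l (nat_lit 3080245))) (T.n (nat_lit 1114) (T.l (nat_lit 361489)) (T.l (nat_lit 377873)))) (T.n (nat_lit 1117) (T.n (nat_lit 1116) (T.l (nat_lit 360482)) (T.l (nat_lit 376866))) (T.n (nat_lit 1118) (T.l (nat_lit 1892496)) (T.l (nat_lit 2572432))))))) (T.n (nat_lit 1135) (T.n (nat_lit 1127) (T.n (nat_lit 1123) (T.n (nat_lit 1121) (T.n (nat_lit 1120) (T.l (nat_lit 1892376)) (T.l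 (nat_lit 2572312))) (T.n (nat_lit 1122) (T.l (nat_lit 311324)) (T.l (nat_lit 417820)))) (T.n (nat_lit 1125) (T.n (nat_lit 1124) (T.l (nat_lit 312328)) (T.l (nat_lit 418824))) (T.n (nat_lit 1126) (T.l (nat_lit 8316474721311)) (T.l (nat_lit 38263275548))))) (T.n (nat_lit 1131) (T.n (nat_lit 1129) (T.n (nat_lit 1128) (T.l (nat_lit 2015389)) (T.l (nat_lit 2736285))) (T.n (nat_lit 1130) (T.l (nat_lit 2015247)) (T.l (nat_lit 2736143)))) (T.n (nat_lit 1133) (T.n (nat_lit 1132) (T.l (nat_lit 106515)) (T.l (nat_lit 204819))) (T.n (nat_lit 1134) (T.l (nat_lit 107524)) (T.l (nat_lit 205828)))))) (T.n (nat_lit 1143) (T.n (nat_lit 1139) (T.n (nat_lit 1137) (T.n (nat_lit 1136) (T.l (nat_lit 6116847272966)) (T.l (nat_lit 1286758804))) (T.n (nat_lit 1138) (T.l (nat_lit 1278379354)) (T.l (nat_lit 1597560)))) (T.n (nat_lit 1141) (T.n (nat_lit 1140) (T.l (nat_lit 2252920)) (T.l (nat_lit 1597451))) (T.n (nat_lit 1142) (T.l (nat_lit 2252811)) (T.l (nat_lit 688215))))) (T.n (nat_lit 1147) (T.n (nat_lit 1145) (T.n (nat_lit 1144)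 (T.l (nat_lit 778327)) (T.l (nat_lit 689200))) (T.n (nat_lit 1146) (T.l (nat_lit 779312)) (T.l (nat_lit 2408673)))) (T.n (nat_lit 1149) (T.n (nat_lit 1148) (T.l (nat_lit 2769121)) (T.l (nat_lit 2408503))) (T.n (nat_lit 1150) (T.l (nat_lit 2768951)) (T.l (nat_lit 27456553370))))))))) (T.n (nat_lit 1215) (T.n (nat_lit 1183) (T.n (nat_lit 1167) (T.n (nat_lit 1159) (T.n (nat_lit 1155) (T.n (nat_lit 1153) (T.n (nat_lit 1152) (T.l (nat_lit 27456553193)) (T.l (nat_lit 180627))) (T.n (nat_lit 1154) (T.l (nat_lit 10920254)) (T.l (nat_lit 57662)))) (T.n (nat_lit 1157) (T.n (nat_lit 1156) (T.l (nat_lit 83149325621)) (T.l (nat_lit 83149324295))) (T.n (nat_lit 1158) (T.l (nat_lit 11862427)) (T.l (nat_lit 565659))))) (T.n (nat_lit 1163) (T.n (nat_lit 1161) (T.n (nat_lit 1160) (T.l (nat_lit 93755244613)) (T.l (nat_lit 573777))) (T.n (nat_lit 1162) (T.l (nat_lit 98855118147)) (T.l (nat_lit 10084816)))) (T.n (nat_lit 1165) (T.n (nat_lit 1164) (T.l (nat_lit 82384)) (T.l (nat_lit 83554133199))) (T.n (nat_lit 1166) (T.l (nat_lit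 83554131978)) (T.l (nat_lit 557336)))))) (T.n (nat_lit 1175) (T.n (nat_lit 1171) (T.n (nat_lit 1169) (T.n (nat_lit 1168) (T.l (nat_lit 87914694009)) (T.l (nat_lit 87914692676))) (T.n (nat_lit 1170) (T.l (nat_lit 223304748351995)) (T.l (nat_lit 27920983581)))) (T.n (nat_lit 1173) (T.n (nat_lit 1172) (T.l (nat_lit 215599979692483)) (T.l (nat_lit 30471701968))) (T.n (nat_lit 1174) (T.l (nat_lit 266722774401546)) (T.l (nat_lit 33021879638))))) (T.n (nat_lit 1179) (T.n (nat_lit 1177) (T.n (nat_lit 1176) (T.l (nat_lit 142485678293519)) (T.l (nat_lit 28391048535))) (T.n (nat_lit 1178) (T.l (nat_lit 110600243175912)) (T.l (nat_lit 13500080616)))) (T.n (nat_lit 1181) (T.n (nat_lit 1180) (T.l (nat_lit 13500080551)) (T.l (nat_lit 29531530555))) (T.n (nat_lit 1182) (T.l (nat_lit 859284312621499)) (T.l (nat_lit 3605943))))))) (T.n (nat_lit 1199) (T.n (nat_lit 1191) (T.n (nat_lit 1187) (T.n (nat_lit 1185) (T.n (nat_lit 1184) (T.l (nat_lit 3630519)) (T.l (nat_lit 15982879160))) (T.n (nat_lit 1186) (T.l (nat_lit 15982879163))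 (T.l (nat_lit 9609245)))) (T.n (nat_lit 1189) (T.n (nat_lit 1188) (T.l (nat_lit 9568285)) (T.l (nat_lit 10470220865))) (T.n (nat_lit 1190) (T.l (nat_lit 575046394544279)) (T.l (nat_lit 73081774236))))) (T.n (nat_lit 1195) (T.n (nat_lit 1193) (T.n (nat_lit 1192) (T.l (nat_lit 73081774231)) (T.l (nat_lit 9699349))) (T.n (nat_lit 1194) (T.l (nat_lit 21510137168039)) (T.l (nat_lit 2626707630)))) (T.n (nat_lit 1197) (T.n (nat_lit 1196) (T.l (nat_lit 2626707623)) (T.l (nat_lit 10092601))) (T.n (nat_lit 1198) (T.l (nat_lit 10035257)) (T.l (nat_lit 86933495218391)))))) (T.n (nat_lit 1207) (T.n (nat_lit 1203) (T.n (nat_lit 1201) (T.n (nat_lit 1200) (T.l (nat_lit 87645470928)) (T.l (nat_lit 87645470935))) (T.n (nat_lit 1202) (T.l (nat_lit 10018881)) (T.l (nat_lit 9764929)))) (T.n (nat_lit 1205) (T.n (nat_lit 1204) (T.l (nat_lit 63294531821774)) (T.l (nat_lit 7729742030))) (T.n (nat_lit 1206) (T.l (nat_lit 7729741999)) (T.l (nat_lit 10248337))))) (T.n (nat_lit 1211) (T.n (nat_lit 1209) (T.n (nat_lit 1208) (T.l (nat_lit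 103432075428107)) (T.l (nat_lit 12631433450))) (T.n (nat_lit 1210) (T.l (nat_lit 12631433483)) (T.l (nat_lit 176009172410773)))) (T.n (nat_lit 1213) (T.n (nat_lit 1212) (T.l (nat_lit 21489000853)) (T.l (nat_lit 11772378))) (T.n (nat_lit 1214) (T.l (nat_lit 8519828)) (T.l (nat_lit 8634516)))))))) (T.n (nat_lit 1247) (T.n (nat_lit 1231) (T.n (nat_lit 1223) (T.n (nat_lit 1219) (T.n (nat_lit 1217) (T.n (nat_lit 1216) (T.l (nat_lit 73822790672)) (T.l (nat_lit 73822790686))) (T.n (nat_lit 1218) (T.l (nat_lit 1543808364)) (T.l (nat_lit 640471093403685)))) (T.n (nat_lit 1221) (T.n (nat_lit 1220) (T.l (nat_lit 70741262707)) (T.l (nat_lit 604786902942736))) (T.n (nat_lit 1222) (T.l (nat_lit 803266)) (T.l (nat_lit 262409))))) (T.n (nat_lit 1227) (T.n (nat_lit 1225) (T.n (nat_lit 1224) (T.l (nat_lit 813777922)) (T.l (nat_lit 813777935))) (T.n (nat_lit 1226) (T.l (nat_lit 604161029)) (T.l (nat_lit 9346318671894)))) (T.n (nat_lit 1229) (T.n (nat_lit 1228) (T.l (nat_lit 69055160342)) (T.l (nat_lit 69055160329))) (T.n (nat_lit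 1230) (T.l (nat_lit 69734514700)) (T.l (nat_lit 568516239549442)))))) (T.n (nat_lit 1239) (T.n (nat_lit 1235) (T.n (nat_lit 1233) (T.n (nat_lit 1232) (T.l (nat_lit 6854328523)) (T.l (nat_lit 6854328540))) (T.n (nat_lit 1234) (T.l (nat_lit 8665941059)) (T.l (nat_lit 8665941060)))) (T.n (nat_lit 1237) (T.n (nat_lit 1236) (T.l (nat_lit 4639899723)) (T.l (nat_lit 4639899722))) (T.n (nat_lit 1238) (T.l (nat_lit 5502122025007)) (T.l (nat_lit 4907361320))))) (T.n (nat_lit 1243) (T.n (nat_lit 1241) (T.n (nat_lit 1240) (T.l (nat_lit 4907361332)) (T.l (nat_lit 680017979))) (T.n (nat_lit 1242) (T.l (nat_lit 680017967)) (T.l (nat_lit 72217854025)))) (T.n (nat_lit 1245) (T.n (nat_lit 1244) (T.l (nat_lit 8800747672)) (T.l (nat_lit 8800747674))) (T.n (nat_lit 1246) (T.l (nat_lit 31617352008)) (T.l (nat_lit 31617352033))))))) (T.n (nat_lit 1263) (T.n (nat_lit 1255) (T.n (nat_lit 1251) (T.n (nat_lit 1249) (T.n (nat_lit 1248) (T.l (nat_lit 22960955720)) (T.l (nat_lit 22960955745))) (T.n (nat_lit 1250) (T.l (nat_lit 32559989258))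 (T.l (nat_lit 32559989190)))) (T.n (nat_lit 1253) (T.n (nat_lit 1252) (T.l (nat_lit 35979428362)) (T.l (nat_lit 17392386575))) (T.n (nat_lit 1254) (T.l (nat_lit 17392386540)) (T.l (nat_lit 36382130703))))) (T.n (nat_lit 1259) (T.n (nat_lit 1257) (T.n (nat_lit 1256) (T.l (nat_lit 36382130668)) (T.l (nat_lit 216128736101454))) (T.n (nat_lit 1258) (T.l (nat_lit 6107694497)) (T.l (nat_lit 138566185411673)))) (T.n (nat_lit 1261) (T.n (nat_lit 1260) (T.l (nat_lit 138566185772107)) (T.l (nat_lit 128120623760462))) (T.n (nat_lit 1262) (T.l (nat_lit 128120622622033)) (T.l (nat_lit 3687987)))))) (T.n (nat_lit 1271) (T.n (nat_lit 1267) (T.n (nat_lit 1265) (T.n (nat_lit 1264) (T.l (nat_lit 42212279859)) (T.l (nat_lit 3687982))) (T.n (nat_lit 1266) (T.l (nat_lit 42212279854)) (T.l (nat_lit 2172301)))) (T.n (nat_lit 1269) (T.n (nat_lit 1268) (T.l (nat_lit 27380680077)) (T.l (nat_lit 2172150))) (T.n (nat_lit 1270) (T.l (nat_lit 27380679926)) (T.l (nat_lit 335593484))))) (T.n (nat_lit 1275) (T.n (nat_lit 1273) (T.n (nat_lit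 1272) (T.l (nat_lit 3849431588870)) (T.l (nat_lit 3849767133190))) (T.n (nat_lit 1274) (T.l (nat_lit 3848894717958)) (T.l (nat_lit 69063410686)))) (T.n (nat_lit 1277) (T.n (nat_lit 1276) (T.l (nat_lit 69063410687)) (T.l (nat_lit 68660741125))) (T.n (nat_lit 1278) (T.l (nat_lit 469860358)) (T.l (nat_lit 469860357)))))))))) (T.n (nat_lit 1407) (T.n (nat_lit 1343) (T.n (nat_lit 1311) (T.n (nat_lit 1295) (T.n (nat_lit 1287) (T.n (nat_lit 1283) (T.n (nat_lit 1281) (T.n (nat_lit 1280) (T.l (nat_lit 9346452996102)) (T.l (nat_lit 9346452996101))) (T.n (nat_lit 1282) (T.l (nat_lit 11006976109)) (T.l (nat_lit 7315710089)))) (T.n (nat_lit 1285) (T.n (nat_lit 1284) (T.l (nat_lit 6577528961)) (T.l (nat_lit 76915663963))) (T.n (nat_lit 1286) (T.l (nat_lit 597657459057762)) (T.l (nat_lit 2148024393))))) (T.n (nat_lit 1291) (T.n (nat_lit 1289) (T.n (nat_lit 1288) (T.l (nat_lit 37384066695234)) (T.l (nat_lit 37387355029570))) (T.n (nat_lit 1290) (T.l (nat_lit 73157551129)) (T.l (nat_lit 72687494210)))) (T.n (nat_lit 1293) (T.n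 (nat_lit 1292) (T.l (nat_lit 596553987744793)) (T.l (nat_lit 4564000834))) (T.n (nat_lit 1294) (T.l (nat_lit 4564000800)) (T.l (nat_lit 5501517946946)))))) (T.n (nat_lit 1303) (T.n (nat_lit 1299) (T.n (nat_lit 1297) (T.n (nat_lit 1296) (T.l (nat_lit 5501517946912)) (T.l (nat_lit 16577396877))) (T.n (nat_lit 1298) (T.l (nat_lit 9464004855)) (T.l (nat_lit 72028347629752)))) (T.n (nat_lit 1301) (T.n (nat_lit 1300) (T.l (nat_lit 31684919497)) (T.l (nat_lit 31684919784))) (T.n (nat_lit 1302) (T.l (nat_lit 31684919719)) (T.l (nat_lit 2663707))))) (T.n (nat_lit 1307) (T.n (nat_lit 1305) (T.n (nat_lit 1304) (T.l (nat_lit 23430119749)) (T.l (nat_lit 23430119734))) (T.n (nat_lit 1306) (T.l (nat_lit 86104416581)) (T.l (nat_lit 86104416566)))) (T.n (nat_lit 1309) (T.n (nat_lit 1308) (T.l (nat_lit 8658989)) (T.l (nat_lit 8683565))) (T.n (nat_lit 1310) (T.l (nat_lit 2684708013)) (T.l (nat_lit 62194012454955))))))) (T.n (nat_lit 1327) (T.n (nat_lit 1319) (T.n (nat_lit 1315) (T.n (nat_lit 1313) (T.n (nat_lit 1312) (T.l (nat_lit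 8867362963499)) (T.l (nat_lit 69323867169))) (T.n (nat_lit 1314) (T.l (nat_lit 69323867172)) (T.l (nat_lit 353844)))) (T.n (nat_lit 1317) (T.n (nat_lit 1316) (T.l (nat_lit 329268)) (T.l (nat_lit 71144054834))) (T.n (nat_lit 1318) (T.l (nat_lit 99025378640929)) (T.l (nat_lit 7593107499))))) (T.n (nat_lit 1323) (T.n (nat_lit 1321) (T.n (nat_lit 1320) (T.l (nat_lit 7593107496)) (T.l (nat_lit 1082482731))) (T.n (nat_lit 1322) (T.l (nat_lit 1082482728)) (T.l (nat_lit 8757290)))) (T.n (nat_lit 1325) (T.n (nat_lit 1324) (T.l (nat_lit 8831018)) (T.l (nat_lit 69592597558))) (T.n (nat_lit 1326) (T.l (nat_lit 3490162079)) (T.l (nat_lit 108375916838973)))))) (T.n (nat_lit 1335) (T.n (nat_lit 1331) (T.n (nat_lit 1329) (T.n (nat_lit 1328) (T.l (nat_lit 11066184990781)) (T.l (nat_lit 1351213117))) (T.n (nat_lit 1330) (T.l (nat_lit 1351213108)) (T.l (nat_lit 72352112726)))) (T.n (nat_lit 1333) (T.n (nat_lit 1332) (T.l (nat_lit 13232234557)) (T.l (nat_lit 13232234548))) (T.n (nat_lit 1334) (T.l (nat_lit 8978481)) (T.l (nat_lit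 8994865))))) (T.n (nat_lit 1339) (T.n (nat_lit 1337) (T.n (nat_lit 1336) (T.l (nat_lit 189745951531089)) (T.l (nat_lit 26459817762897))) (T.n (nat_lit 1338) (T.l (nat_lit 71472399434)) (T.l (nat_lit 3231014991)))) (T.n (nat_lit 1341) (T.n (nat_lit 1340) (T.l (nat_lit 3231014993)) (T.l (nat_lit 23166058575))) (T.n (nat_lit 1342) (T.l (nat_lit 23166058577)) (T.l (nat_lit 73694511282)))))))) (T.n (nat_lit 1375) (T.n (nat_lit 1359) (T.n (nat_lit 1351) (T.n (nat_lit 1347) (T.n (nat_lit 1345) (T.n (nat_lit 1344) (T.l (nat_lit 585532296479816)) (T.l (nat_lit 9396302))) (T.n (nat_lit 1346) (T.l (nat_lit 9363534)) (T.l (nat_lit 35257857359998)))) (T.n (nat_lit 1349) (T.n (nat_lit 1348) (T.l (nat_lit 285420240781438)) (T.l (nat_lit 4306804866))) (T.n (nat_lit 1350) (T.l (nat_lit 4306804862)) (T.l (nat_lit 10109038))))) (T.n (nat_lit 1355) (T.n (nat_lit 1353) (T.n (nat_lit 1352) (T.l (nat_lit 10330222)) (T.l (nat_lit 61098528809204))) (T.n (nat_lit 1354) (T.l (nat_lit 521300449370356)) (T.l (nat_lit 88599473946987))))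 (T.n (nat_lit 1357) (T.n (nat_lit 1356) (T.l (nat_lit 11149891)) (T.l (nat_lit 11575326))) (T.n (nat_lit 1358) (T.l (nat_lit 8478750)) (T.l (nat_lit 12927401)))))) (T.n (nat_lit 1367) (T.n (nat_lit 1363) (T.n (nat_lit 1361) (T.n (nat_lit 1360) (T.l (nat_lit 13607337)) (T.l (nat_lit 11878683))) (T.n (nat_lit 1362) (T.l (nat_lit 11944219)) (T.l (nat_lit 9077835)))) (T.n (nat_lit 1365) (T.n (nat_lit 1364) (T.l (nat_lit 103619625014)) (T.l (nat_lit 95967748109))) (T.n (nat_lit 1366) (T.l (nat_lit 1207985397)) (T.l (nat_lit 26240042469))))) (T.n (nat_lit 1371) (T.n (nat_lit 1369) (T.n (nat_lit 1368) (T.l (nat_lit 95965978626)) (T.l (nat_lit 21340667987))) (T.n (nat_lit 1370) (T.l (nat_lit 76906815825)) (T.l (nat_lit 73185974354954)))) (T.n (nat_lit 1373) (T.n (nat_lit 1372) (T.l (nat_lit 260106717520921)) (T.l (nat_lit 2886809628560236577))) (T.n (nat_lit 1374) (T.l (nat_lit 1756441810449899553)) (T.l (nat_lit 922468433713766154261))))))) (T.n (nat_lit 1391) (T.n (nat_lit 1383) (T.n (nat_lit 1379) (T.n (nat_lit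 1377) (T.n (nat_lit 1376) (T.l (nat_lit 81066463506580526)) (T.l (nat_lit 9895808459920))) (T.n (nat_lit 1378) (T.l (nat_lit 4769879359769330692)) (T.l (nat_lit 10205843296870364522637799605470425967568723282616869976128866754649)))) (T.n (nat_lit 1381) (T.n (nat_lit 1380) (T.l (nat_lit 44566749178644714996250240018)) (T.l (nat_lit 68526637089))) (T.n (nat_lit 1382) (T.l (nat_lit 203317427)) (T.l (nat_lit 13520763281776657))))) (T.n (nat_lit 1387) (T.n (nat_lit 1385) (T.n (nat_lit 1384) (T.l (nat_lit 4253696105233537054995997564453771247632)) (T.l (nat_lit 34846278494070605508526260543842939964777505))) (T.n (nat_lit 1386) (T.l (nat_lit 4253696105166383681716874670456818515988)) (T.l (nat_lit 63385011332726320969375667216436)))) (T.n (nat_lit 1389) (T.n (nat_lit 1388) (T.l (nat_lit 63385011332726320969375667217426)) (T.l (nat_lit 7737428141201943477706989593))) (T.n (nat_lit 1390) (T.l (nat_lit 68392329292)) (T.l (nat_lit 519250012830741475961229519783896082)))))) (T.n (nat_lit 1399) (T.n (nat_lit 1395) (T.n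 (nat_lit 1393) (T.n (nat_lit 1392) (T.l (nat_lit 519250012844644459458751216457146374)) (T.l (nat_lit 1718054175018))) (T.n (nat_lit 1394) (T.l (nat_lit 675189665947844)) (T.l (nat_lit 4598738719590170636)))) (T.n (nat_lit 1397) (T.n (nat_lit 1396) (T.l (nat_lit 4253696105423883974563735127128304780302)) (T.l (nat_lit 7433081882256276740804796445))) (T.n (nat_lit 1398) (T.l (nat_lit 907358619200121213034521)) (T.l (nat_lit 7433118217856524966969910290))))) (T.n (nat_lit 1403) (T.n (nat_lit 1401) (T.n (nat_lit 1400) (T.l (nat_lit 7433118218000710042820748392)) (T.l (nat_lit 110762092735871697925))) (T.n (nat_lit 1402) (T.l (nat_lit 1718056813567)) (T.l (nat_lit 519249983123811147426085314280882205)))) (T.n (nat_lit 1405) (T.n (nat_lit 1404) (T.l (nat_lit 1719471816825)) (T.l (nat_lit 13520764691136815))) (T.n (nat_lit 1406) (T.l (nat_lit 14074299810194743)) (T.l (nat_lit 7737427698431099100486378510))))))))) (T.n (nat_lit 1471) (T.n (nat_lit 1439) (T.n (nat_lit 1423) (T.n (nat_lit 1415) (T.n (nat_lit 1411) (T.n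 (nat_lit 1409) (T.n (nat_lit 1408) (T.l (nat_lit 14074299807695166)) (T.l (nat_lit 277755098371095060896895939984527892649410946241876728807195697313788164448280))) (T.n (nat_lit 1410) (T.l (nat_lit 115296663957401502742)) (T.l (nat_lit 2034218132229604507672)))) (T.n (nat_lit 1413) (T.n (nat_lit 1412) (T.l (nat_lit 3)) (T.l (nat_lit 1175))) (T.n (nat_lit 1414) (T.l (nat_lit 169)) (T.l (nat_lit 2442887))))) (T.n (nat_lit 1419) (T.n (nat_lit 1417) (T.n (nat_lit 1416) (T.l (nat_lit 2594723572113806470216365040730)) (T.l (nat_lit 2625750298))) (T.n (nat_lit 1418) (T.l (nat_lit 3948049674182095889416)) (T.l (nat_lit 350861931672002529189943)))) (T.n (nat_lit 1421) (T.n (nat_lit 1420) (T.l (nat_lit 14851133064660)) (T.l (nat_lit 3948049111847733126152))) (T.n (nat_lit 1422) (T.l (nat_lit 2874260944257633510351822872)) (T.l (nat_lit 67732484)))))) (T.n (nat_lit 1431) (T.n (nat_lit 1427) (T.n (nat_lit 1425) (T.n (nat_lit 1424) (T.l (nat_lit 134841350)) (T.l (nat_lit 1820509466))) (T.n (nat_lit 1426) (T.l (nat_lit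 1820738625)) (T.l (nat_lit 63294002380901)))) (T.n (nat_lit 1429) (T.n (nat_lit 1428) (T.l (nat_lit 7152135914669)) (T.l (nat_lit 121660482062337074))) (T.n (nat_lit 1430) (T.l (nat_lit 2479244437917653717918212120)) (T.l (nat_lit 67174269572169848396926559240))))) (T.n (nat_lit 1435) (T.n (nat_lit 1433) (T.n (nat_lit 1432) (T.l (nat_lit 590439564624942)) (T.l (nat_lit 45602318389026842))) (T.n (nat_lit 1434) (T.l (nat_lit 14913611645036)) (T.l (nat_lit 140184507625063671)))) (T.n (nat_lit 1437) (T.n (nat_lit 1436) (T.l (nat_lit 4612262781200606248)) (T.l (nat_lit 23817972099133952567459186377736))) (T.n (nat_lit 1438) (T.l (nat_lit 37935374312806)) (T.l (nat_lit 38111338117194530218012))))))) (T.n (nat_lit 1455) (T.n (nat_lit 1447) (T.n (nat_lit 1443) (T.n (nat_lit 1441) (T.n (nat_lit 1440) (T.l (nat_lit 2626045059)) (T.l (nat_lit 255206))) (T.n (nat_lit 1442) (T.l (nat_lit 69801615391)) (T.l (nat_lit 87514587174)))) (T.n (nat_lit 1445) (T.n (nat_lit 1444) (T.l (nat_lit 1443710604301308878876)) (T.l (nat_lit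 8896849))) (T.n (nat_lit 1446) (T.l (nat_lit 18588966219153506)) (T.l (nat_lit 68384146662))))) (T.n (nat_lit 1451) (T.n (nat_lit 1449) (T.n (nat_lit 1448) (T.l (nat_lit 117653860213858387)) (T.l (nat_lit 1918817223019461952591))) (T.n (nat_lit 1450) (T.l (nat_lit 335817958523707020783517724)) (T.l (nat_lit 70741139487)))) (T.n (nat_lit 1453) (T.n (nat_lit 1452) (T.l (nat_lit 4232384112389385336595529)) (T.l (nat_lit 1180636795872714465293))) (T.n (nat_lit 1454) (T.l (nat_lit 81364271604742)) (T.l (nat_lit 205389115996091909044793843638287)))))) (T.n (nat_lit 1463) (T.n (nat_lit 1459) (T.n (nat_lit 1457) (T.n (nat_lit 1456) (T.l (nat_lit 4837938469516369846377)) (T.l (nat_lit 3023753481213431865966996))) (T.n (nat_lit 1458) (T.l (nat_lit 8486945)) (T.l (nat_lit 56946754407954880938914299908)))) (T.n (nat_lit 1461) (T.n (nat_lit 1460) (T.l (nat_lit 59541040325972292637311004)) (T.l (nat_lit 37672904194798576713808))) (T.n (nat_lit 1462) (T.l (nat_lit 4985408813516224668760)) (T.l (nat_lit 71479435351))))) (T.n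 (nat_lit 1467) (T.n (nat_lit 1465) (T.n (nat_lit 1464) (T.l (nat_lit 563568227501055)) (T.l (nat_lit 21510144541745))) (T.n (nat_lit 1466) (T.l (nat_lit 29924861832932542108017672)) (T.l (nat_lit 563568101687322)))) (T.n (nat_lit 1469) (T.n (nat_lit 1468) (T.l (nat_lit 41)) (T.l (nat_lit 1047))) (T.n (nat_lit 1470) (T.l (nat_lit 63294002380908)) (T.l (nat_lit 3022795303825704188133423)))))))) (T.n (nat_lit 1503) (T.n (nat_lit 1487) (T.n (nat_lit 1479) (T.n (nat_lit 1475) (T.n (nat_lit 1473) (T.n (nat_lit 1472) (T.l (nat_lit 58685956861534254)) (T.l (nat_lit 480755342666770292804))) (T.n (nat_lit 1474) (T.l (nat_lit 484416785107278348372)) (T.l (nat_lit 5567093325838)))) (T.n (nat_lit 1477) (T.n (nat_lit 1476) (T.l (nat_lit 5567495979039)) (T.l (nat_lit 68594106381))) (T.n (nat_lit 1478) (T.l (nat_lit 318289239781339123159171095)) (T.l (nat_lit 72143340574))))) (T.n (nat_lit 1483) (T.n (nat_lit 1481) (T.n (nat_lit 1480) (T.l (nat_lit 679682442)) (T.l (nat_lit 591057909367101))) (T.n (nat_lit 1482) (T.l (nat_lit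 86713639229)) (T.l (nat_lit 1669630404949200637179003467306565651)))) (T.n (nat_lit 1485) (T.n (nat_lit 1484) (T.l (nat_lit 949347340)) (T.l (nat_lit 420066617649465930249542189249369275043420494915671948292482524170))) (T.n (nat_lit 1486) (T.l (nat_lit 23081499926536199)) (T.l (nat_lit 37963502888687335752753)))))) (T.n (nat_lit 1495) (T.n (nat_lit 1491) (T.n (nat_lit 1489) (T.n (nat_lit 1488) (T.l (nat_lit 184571046688003801092)) (T.l (nat_lit 189101657400870658052))) (T.n (nat_lit 1490) (T.l (nat_lit 488319554943103499443742862687517896848690295341558748121752092725)) (T.l (nat_lit 888312844316462639868902175712985683101693400740093961)))) (T.n (nat_lit 1493) (T.n (nat_lit 1492) (T.l (nat_lit 605832697675868920791133)) (T.l (nat_lit 1465936789873021149026329129332336906608659))) (T.n (nat_lit 1494) (T.l (nat_lit 605274733251216572793861)) (T.l (nat_lit 68518191137))))) (T.n (nat_lit 1499) (T.n (nat_lit 1497) (T.n (nat_lit 1496) (T.l (nat_lit 180340712858708)) (T.l (nat_lit 604647476347656526996586))) (T.n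 (nat_lit 1498) (T.l (nat_lit 40577205258264108716647285777451)) (T.l (nat_lit 39734295744719884714021)))) (T.n (nat_lit 1501) (T.n (nat_lit 1500) (T.l (nat_lit 70675906695)) (T.l (nat_lit 4963851444529117290457129006))) (T.n (nat_lit 1502) (T.l (nat_lit 4742853923638501511)) (T.l (nat_lit 606492101770135531095090))))))) (T.n (nat_lit 1519) (T.n (nat_lit 1511) (T.n (nat_lit 1507) (T.n (nat_lit 1505) (T.n (nat_lit 1504) (T.l (nat_lit 334608889597771728538510405)) (T.l (nat_lit 5286369042276159079565100185))) (T.n (nat_lit 1506) (T.l (nat_lit 78773037295628977208)) (T.l (nat_lit 71874331678)))) (T.n (nat_lit 1509) (T.n (nat_lit 1508) (T.l (nat_lit 9715359309931544)) (T.l (nat_lit 39734453369056434110486))) (T.n (nat_lit 1510) (T.l (nat_lit 20341099439368)) (T.l (nat_lit 166634286596800546))))) (T.n (nat_lit 1515) (T.n (nat_lit 1513) (T.n (nat_lit 1512) (T.l (nat_lit 547657258741140043954288944037956)) (T.l (nat_lit 479809045302192947238))) (T.n (nat_lit 1514) (T.l (nat_lit 91608167849837017698796553384)) (T.l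 (nat_lit 19130186228702352537461689604912832578)))) (T.n (nat_lit 1517) (T.n (nat_lit 1516) (T.l (nat_lit 11182637676997992682341425)) (T.l (nat_lit 40597323298233232120871065280550))) (T.n (nat_lit 1518) (T.l (nat_lit 50362122875147744684584949508460853731423)) (T.l (nat_lit 484367253754760676429)))))) (T.n (nat_lit 1527) (T.n (nat_lit 1523) (T.n (nat_lit 1521) (T.n (nat_lit 1520) (T.l (nat_lit 484367253760733650946)) (T.l (nat_lit 594905986719852))) (T.n (nat_lit 1522) (T.l (nat_lit 588857271779418)) (T.l (nat_lit 591056295035040)))) (T.n (nat_lit 1525) (T.n (nat_lit 1524) (T.l (nat_lit 618349511692)) (T.l (nat_lit 5342811))) (T.n (nat_lit 1526) (T.l (nat_lit 334608885323855677466289178)) (T.l (nat_lit 63224544707715))))) (T.n (nat_lit 1531) (T.n (nat_lit 1529) (T.n (nat_lit 1528) (T.l (nat_lit 75481113)) (T.l (nat_lit 2938967893614256568624363480204))) (T.n (nat_lit 1530) (T.l (nat_lit 21453102728323)) (T.l (nat_lit 174959716508113932079248436780463554606)))) (T.n (nat_lit 1533) (T.n (nat_lit 1532) (T.l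 (nat_lit 9938283388060980723990396979)) (T.l (nat_lit 11741347826107721188072811312938371711132606548))) (T.n (nat_lit 1534) (T.l (nat_lit 21360029305108319939987878009749553)) (T.l (nat_lit 436297978673019680008104233284528980877181038)))))))))))
def h3 : T := (T.n (nat_lit 1563) (T.n (nat_lit 1549) (T.n (nat_lit 1542) (T.n (nat_lit 1538) (T.n (nat_lit 1536) (T.l (nat_lit 29279461714242578174987385899892464178979363621495816)) (T.n (nat_lit 1537) (T.l (nat_lit 3562421396815036698354410932642438760395558396999)) (T.l (nat_lit 169310436302475732737887864565665185840)))) (T.n (nat_lit 1540) (T.n (nat_lit 1539) (T.l (nat_lit 2477089779428352520593104983)) (T.l (nat_lit 2522922103143704740420441678883))) (T.n (nat_lit 1541) (T.l (nat_lit 560201442975820)) (T.l (nat_lit 307973889543929058327438353))))) (T.n (nat_lit 1545) (T.n (nat_lit 1543) (T.l (nat_lit 38853666965420998058078)) (T.n (nat_lit 1544) (T.l (nat_lit 434865893165898034478579003537133553075298391)) (T.l (nat_lit 20667777868954262251767910235209829))))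 (T.n (nat_lit 1547) (T.n (nat_lit 1546) (T.l (nat_lit 96902697625671516338107523114)) (T.l (nat_lit 169310436302473355358215940683319533612))) (T.n (nat_lit 1548) (T.l (nat_lit 20667777868954267012052374403023943)) (T.l (nat_lit 175703680006341682)))))) (T.n (nat_lit 1556) (T.n (nat_lit 1552) (T.n (nat_lit 1550) (T.l (nat_lit 20667777868953270454968281635341326)) (T.n (nat_lit 1551) (T.l (nat_lit 177120096936238052127680607028660265982)) (T.l (nat_lit 2522928186252873663726401806337)))) (T.n (nat_lit 1554) (T.n (nat_lit 1553) (T.l (nat_lit 793601582979546954451799577395210)) (T.l (nat_lit 40624508776660846501898))) (T.n (nat_lit 1555) (T.l (nat_lit 1018)) (T.l (nat_lit 36))))) (T.n (nat_lit 1559) (T.n (nat_lit 1557) (T.l (nat_lit 54)) (T.n (nat_lit 1558) (T.l (nat_lit 58)) (T.l (nat_lit 1132)))) (T.n (nat_lit 1561) (T.n (nat_lit 1560) (T.l (nat_lit 1205)) (T.l (nat_lit 211))) (T.n (nat_lit 1562) (T.l (nat_lit 1337)) (T.l (nat_lit 583291866464258))))))) (T.n (nat_lit 1577) (T.n (nat_lit 1570) (T.n (nat_lit 1566)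 (T.n (nat_lit 1564) (T.l (nat_lit 387878083857753370)) (T.n (nat_lit 1565) (T.l (nat_lit 184531071124866352129)) (T.l (nat_lit 184531071192981905410)))) (T.n (nat_lit 1568) (T.n (nat_lit 1567) (T.l (nat_lit 4589172488004846602)) (T.l (nat_lit 18604837805532206))) (T.n (nat_lit 1569) (T.l (nat_lit 4534362126750618367746101)) (T.l (nat_lit 1371352727560273084935703914285185200170918256663))))) (T.n (nat_lit 1573) (T.n (nat_lit 1571) (T.l (nat_lit 18604837805532328)) (T.n (nat_lit 1572) (T.l (nat_lit 553510430115231097987)) (T.l (nat_lit 2749056549012)))) (T.n (nat_lit 1575) (T.n (nat_lit 1574) (T.l (nat_lit 184486045574892675078)) (T.l (nat_lit 306781367212550167276678407422039))) (T.n (nat_lit 1576) (T.l (nat_lit 2513152960205209858683957767165084677)) (T.l (nat_lit 4534357443503973153751144)))))) (T.n (nat_lit 1584) (T.n (nat_lit 1580) (T.n (nat_lit 1578) (T.l (nat_lit 2721071703812196771392611591308)) (T.n (nat_lit 1579) (T.l (nat_lit 2545525427267389456109013753893)) (T.l (nat_lit 20598547894962180834298080649252536991786))))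 (T.n (nat_lit 1582) (T.n (nat_lit 1581) (T.l (nat_lit 38738572487427901891600)) (T.l (nat_lit 333071055534148183824647357))) (T.n (nat_lit 1583) (T.l (nat_lit 553510438911332466781)) (T.l (nat_lit 8247411188740))))) (T.n (nat_lit 1587) (T.n (nat_lit 1585) (T.l (nat_lit 553451875073738055736)) (T.n (nat_lit 1586) (T.l (nat_lit 68518265886)) (T.l (nat_lit 67562792449753132)))) (T.n (nat_lit 1589) (T.n (nat_lit 1588) (T.l (nat_lit 4534062249970709300233214)) (T.l (nat_lit 2492525603874786525945195865179210829))) (T.n (nat_lit 1590) (T.l (nat_lit 4534062249970709300232232)) (T.l (nat_lit 0))))))))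
def H : T := (T.n (nat_lit 1023) (T.n (nat_lit 511) h0 h1) (T.n (nat_lit 1535) h2 h3))
theorem hlast : getB H 1591 = 0 := by decide +kernel
end Vale.Agent.Lib.P038.Sat.I.Reg
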